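import Mathlib

/-!
Basic vocabulary for the cycle-complete Ramsey development: paths and cycles as lists, segments
of indexed paths, independence inside finsets, connectedness of finsets by exit edges.
-/

namespace Vale.Agent.P048.Cycle

open Finset

variable {V : Type*}

/-- A path as a duplicate-free list, with first vertex `u` and last vertex `v`. -/
def IsP (G : SimpleGraph V) (l : List V) (u v : V) : Prop :=
  l.IsChain G.Adj ∧ l.Nodup ∧ l.head? = some u ∧ l.getLast? = some v

/-- There is a cycle through exactly `L` distinct vertices. -/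
def HasCyc (G : SimpleGraph V) (L : ℕ) : Prop :=
  ∃ l u v, IsP G l u v ∧ G.Adj v u ∧ l.length = L

/-- The list `f a, f (a+1), ..., f b` (empty if `b < a`). -/
def sg (f : ℕ → V) (a b : ℕ) : List V := (List.range' a (b + 1 - a)).map f

/-- `f 0, ..., f l` is a path. -/
def PF (G : SimpleGraph V) (f : ℕ → V) (l : ℕ) : Prop :=
  (∀ i j, i ≤ l → j ≤ l → f i = f j → i = j) ∧ ∀ i, i < l → G.Adj (f i) (f (i + 1))

variable {G : SimpleGraph V}

theorem isP_singleton (u : V) : IsP G [u] u u := by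
  simp [IsP]

theorem IsP.ne_nil {l : List V} {u v : V} (h : IsP G l u v) : l ≠ [] := by
  intro e; subst e; simp [IsP] at h

theorem IsP.reverse {l : List V} {u v : V} (h : IsP G l u v) : IsP G l.reverse v u := by
  obtain ⟨hc, hn, hh, hl⟩ := h
  refine ⟨List.isChain_reverse.mpr (hc.imp fun a b hab => hab.symm), by simpa using hn, ?_, ?_⟩
  · simpa using hl
  · simpa using hh

theorem IsP.append {l l' : List V} {u v u' v' : V} (h : IsP G l u v) (h' : IsP G l' u' v')
    (hvu : G.Adj v u') (hd : ∀ x ∈ l, x ∉ l') : IsP G (l ++ l') u v' := by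
  have n1 := h.ne_nil
  have n2 := h'.ne_nil
  obtain ⟨hc, hn, hh, hl⟩ := h
  obtain ⟨hc', hn', hh', hl'⟩ := h'
  refine ⟨hc.append hc' ?_, ?_, ?_, ?_⟩
  · intro x hx y hy
    rw [hl] at hx; rw [hh'] at hy
    simp only [Option.mem_def, Option.some.injEq] at hx hy
    subst hx; subst hy; exact hvu
  · exact List.nodup_append'.2 ⟨hn, hn', fun x hx hx' => hd x hx hx'⟩
  · rw [List.head?_append_of_ne_nil _ n1]; exact hh
  · rw [List.getLast?_append_of_ne_nil _ n2]; exact hl'

theorem IsP.cons {l : List V} {u v w : V} (h : IsP G l u v) (hw : G.Adj w u) (hn : w ∉ l) :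
    IsP G (w :: l) w v := by
  simpa using (isP_singleton (G := G) w).append h hw (by simpa using hn)

theorem IsP.concat {l : List V} {u v w : V} (h : IsP G l u v) (hw : G.Adj v w) (hn : w ∉ l) :
    IsP G (l ++ [w]) u w :=
  h.append (isP_singleton w) hw (by intro x hx; simp; rintro rfl; exact hn hx)

theorem IsP.head_mem {l : List V} {u v : V} (h : IsP G l u v) : u ∈ l :=
  List.mem_of_mem_head? h.2.2.1

theorem IsP.last_mem {l : List V} {u v : V} (h : IsP G l u v) : v ∈ l :=
  List.mem_of_mem_getLast? h.2.2.2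

/-- The part of a path up to an element. -/
theorem IsP.left {A B : List V} {u v z : V} (h : IsP G (A ++ z :: B) u v) :
    IsP G (A ++ [z]) u z := by
  have e : A ++ z :: B = (A ++ [z]) ++ B := by simp
  rw [e] at h
  obtain ⟨hc, hn, hh, -⟩ := h
  refine ⟨hc.left_of_append, hn.of_append_left, ?_, by simp⟩
  rw [List.head?_append_of_ne_nil _ (by simp)] at hh
  exact hh

/-- The part of a path from an element. -/
theorem IsP.right {A B : List V} {u v z : V} (h : IsP G (A ++ z :: B) u v) :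
    IsP G (z :: B) z v := by
  obtain ⟨hc, hn, -, hl⟩ := h
  refine ⟨hc.right_of_append, hn.of_append_right, by simp, ?_⟩
  rw [List.getLast?_append_of_ne_nil _ (by simp)] at hl
  exact hl

theorem mem_sg {f : ℕ → V} {a b : ℕ} {x : V} :
    x ∈ sg f a b ↔ ∃ i, a ≤ i ∧ i ≤ b ∧ f i = x := by
  simp only [sg, List.mem_map, List.mem_range'_1]
  constructor
  · rintro ⟨i, ⟨h1, h2⟩, h3⟩; exact ⟨i, h1, by omega, h3⟩
  · rintro ⟨i, h1, h2, h3⟩; exact ⟨i, ⟨h1, by omega⟩, h3⟩

@[simp] theorem length_sg (f : ℕ → V) (a b : ℕ) : (sg f a b).length = b + 1 - a := by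
  simp [sg]

theorem isP_sg {f : ℕ → V} {a b : ℕ} (hab : a ≤ b)
    (hinj : ∀ i j, a ≤ i → i ≤ b → a ≤ j → j ≤ b → f i = f j → i = j)
    (hadj : ∀ i, a ≤ i → i < b → G.Adj (f i) (f (i + 1))) : IsP G (sg f a b) (f a) (f b) := by
  obtain ⟨n, rfl⟩ := Nat.exists_eq_add_of_le hab
  induction n with
  | zero => simpa [sg] using isP_singleton (G := G) (f a)
  | succ n ih =>
    have h1 := ih (by omega) (fun i j h1 h2 h3 h4 => hinj i j h1 (by omega) h3 (by omega))
      (fun i h1 h2 => hadj i h1 (by omega))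
    have e : sg f a (a + (n + 1)) = sg f a (a + n) ++ [f (a + (n + 1))] := by
      have : a + (n + 1) + 1 - a = (a + n + 1 - a) + 1 := by omega
      simp only [sg, this, List.range'_concat, List.map_append, List.map_cons, List.map_nil]
      congr 3
      omega
    rw [e]
    refine h1.concat (hadj (a + n) (by omega) (by omega)) ?_
    rw [mem_sg]
    rintro ⟨i, h2, h3, h4⟩
    have := hinj i (a + (n + 1)) h2 (by omega) (by omega) (by omega) h4
    omega

theorem PF.sg {f : ℕ → V} {l a b : ℕ} (h : PF G f l) (hab : a ≤ b) (hbl : b ≤ l) :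
    IsP G (sg f a b) (f a) (f b) :=
  isP_sg hab (fun i j _ hi _ hj e => h.1 i j (by omega) (by omega) e)
    (fun i _ hi => h.2 i (by omega))

theorem IsP.toPF {l : List V} {u v : V} (h : IsP G l u v) :
    ∃ f : ℕ → V, PF G f (l.length - 1) ∧ f 0 = u ∧ f (l.length - 1) = v ∧
      (∀ x, x ∈ l ↔ ∃ i, i ≤ l.length - 1 ∧ f i = x) := by
  have hne := h.ne_nil
  have hpos : 0 < l.length := List.length_pos_of_ne_nil hne
  obtain ⟨hc, hn, hh, hl⟩ := h
  refine ⟨fun i => l.getD i u, ⟨?_, ?_⟩, ?_, ?_, ?_⟩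
  · intro i j hi hj e
    simp only at e
    rw [List.getD_eq_getElem _ _ (by omega : i < l.length),
      List.getD_eq_getElem _ _ (by omega : j < l.length)] at e
    exact (List.Nodup.getElem_inj_iff hn).mp e
  · intro i hi
    show G.Adj (l.getD i u) (l.getD (i + 1) u)
    rw [List.getD_eq_getElem _ _ (by omega : i < l.length),
      List.getD_eq_getElem _ _ (by omega : i + 1 < l.length)]
    exact List.isChain_iff_getElem.mp hc i (by omega)
  · show l.getD 0 u = u
    rw [List.getD_eq_getElem _ _ hpos]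
    rw [List.head?_eq_getElem?, List.getElem?_eq_getElem hpos] at hh
    exact Option.some.inj hh
  · show l.getD (l.length - 1) u = v
    rw [List.getD_eq_getElem _ _ (by omega : l.length - 1 < l.length)]
    rw [List.getLast?_eq_getElem?, List.getElem?_eq_getElem (by omega)] at hl
    exact Option.some.inj hl
  · intro x
    constructor
    · intro hx
      obtain ⟨i, hi, e⟩ := List.getElem_of_mem hx
      exact ⟨i, by omega, by simp only; rw [List.getD_eq_getElem _ _ hi]; exact e⟩
    · rintro ⟨i, hi, e⟩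
      subst e
      show l.getD i u ∈ l
      rw [List.getD_eq_getElem _ _ (by omega : i < l.length)]
      exact List.getElem_mem _

/-! ### Independence inside finsets -/

/-- No two members of `J` are adjacent. -/
def Indep (G : SimpleGraph V) (J : Finset V) : Prop := ∀ x ∈ J, ∀ y ∈ J, ¬G.Adj x y

/-- `A` and `B` have no edge between them. -/
def NoE (G : SimpleGraph V) (A B : Finset V) : Prop := ∀ a ∈ A, ∀ b ∈ B, ¬G.Adj a b

open Classical in
/-- Independence number of a finset. -/
noncomputable def al (G : SimpleGraph V) (S : Finset V) : ℕ :=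
  (S.powerset.filter fun J => Indep G J).sup Finset.card

/-- Every proper nonempty part of `S` has an edge to the rest of `S`. -/
def Conn [DecidableEq V] (G : SimpleGraph V) (S : Finset V) : Prop :=
  ∀ A, A ⊆ S → A.Nonempty → A ≠ S → ∃ a ∈ A, ∃ b ∈ S \ A, G.Adj a b

/-- `S` stays connected after deleting any one vertex. -/
def NoCut [DecidableEq V] (G : SimpleGraph V) (S : Finset V) : Prop :=
  ∀ x ∈ S, Conn G (S.erase x)

open Classical in
/-- Number of neighbours of `x` in `S`. -/
noncomputable def degIn (G : SimpleGraph V) (S : Finset V) (x : V) : ℕ :=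
  (S.filter fun y => G.Adj x y).card

/-- Two disjoint `X`-`Y` paths inside `S` meeting `X` and `Y` only at their ends. -/
structure Link (G : SimpleGraph V) (S X Y : Finset V) (l₁ l₂ : List V) (a₁ b₁ a₂ b₂ : V) :
    Prop where
  p₁ : IsP G l₁ a₁ b₁
  p₂ : IsP G l₂ a₂ b₂
  ha₁ : a₁ ∈ X
  ha₂ : a₂ ∈ X
  hb₁ : b₁ ∈ Y
  hb₂ : b₂ ∈ Y
  sub : ∀ x, x ∈ l₁ ∨ x ∈ l₂ → x ∈ S
  disj : ∀ x ∈ l₁, x ∉ l₂
  x₁ : ∀ x ∈ l₁, x ∈ X → x = a₁
  y₁ : ∀ x ∈ l₁, x ∈ Y → x = b₁
  x₂ : ∀ x ∈ l₂, x ∈ X → x = a₂
  y₂ : ∀ x ∈ l₂, x ∈ Y → x = b₂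

theorem le_al {S J : Finset V} (hJ : J ⊆ S) (hi : Indep G J) : J.card ≤ al G S := by
  classical
  exact Finset.le_sup (f := Finset.card) (mem_filter.mpr ⟨mem_powerset.mpr hJ, hi⟩)

theorem exists_al (G : SimpleGraph V) (S : Finset V) :
    ∃ J, J ⊆ S ∧ Indep G J ∧ J.card = al G S := by
  classical
  have hne : (S.powerset.filter fun J => Indep G J).Nonempty :=
    ⟨∅, mem_filter.mpr ⟨mem_powerset.mpr (empty_subset _), by simp [Indep]⟩⟩
  obtain ⟨J, hJ, e⟩ := Finset.exists_mem_eq_sup _ hne Finset.card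
  rw [mem_filter, mem_powerset] at hJ
  exact ⟨J, hJ.1, hJ.2, e.symm⟩

theorem al_mono {S T : Finset V} (h : S ⊆ T) : al G S ≤ al G T := by
  obtain ⟨J, h1, h2, h3⟩ := exists_al G S
  exact h3 ▸ le_al (h1.trans h) h2

theorem al_empty : al G (∅ : Finset V) = 0 := by
  obtain ⟨J, h1, -, h3⟩ := exists_al G (∅ : Finset V)
  rw [← h3, Finset.subset_empty.mp h1, card_empty]

theorem al_pos {S : Finset V} (h : S.Nonempty) : 1 ≤ al G S := by
  obtain ⟨x, hx⟩ := h
  simpa using le_al (G := G) (J := {x}) (by simpa using hx)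
    (by intro a ha b hb; simp at ha hb; subst ha; subst hb; exact G.irrefl)

theorem al_le_card {S : Finset V} : al G S ≤ S.card := by
  obtain ⟨J, h1, -, h3⟩ := exists_al G S
  exact h3 ▸ card_le_card h1

theorem clique_of_al_le_one {S : Finset V} (h : al G S ≤ 1) :
    ∀ x ∈ S, ∀ y ∈ S, x ≠ y → G.Adj x y := by
  classical
  intro x hx y hy hxy
  by_contra hn
  have := le_al (G := G) (S := S) (J := {x, y}) (by simp [insert_subset_iff, hx, hy]) (by
    intro a ha b hb
    simp only [mem_insert, mem_singleton] at ha hb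
    rcases ha with rfl | rfl <;> rcases hb with rfl | rfl <;>
      first | exact G.irrefl | exact hn | exact fun h => hn h.symm)
  rw [card_pair hxy] at this
  omega

variable [DecidableEq V]

theorem al_union_le (S T : Finset V) : al G (S ∪ T) ≤ al G S + al G T := by
  obtain ⟨J, h1, h2, h3⟩ := exists_al G (S ∪ T)
  have e : J = (J ∩ S) ∪ (J ∩ T) := by
    rw [← inter_union_distrib_left]; exact (inter_eq_left.mpr h1).symm
  have a := le_al (G := G) (inter_subset_right : J ∩ S ⊆ S)
    (fun x hx y hy => h2 x (mem_of_mem_inter_left hx) y (mem_of_mem_inter_left hy))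
  have b := le_al (G := G) (inter_subset_right : J ∩ T ⊆ T)
    (fun x hx y hy => h2 x (mem_of_mem_inter_left hx) y (mem_of_mem_inter_left hy))
  have c := card_union_le (J ∩ S) (J ∩ T)
  rw [← e] at c
  omega

theorem al_add_le {S T : Finset V} (hd : Disjoint S T) (hn : NoE G S T) :
    al G S + al G T ≤ al G (S ∪ T) := by
  obtain ⟨J, h1, h2, h3⟩ := exists_al G S
  obtain ⟨K, k1, k2, k3⟩ := exists_al G T
  have := le_al (G := G) (union_subset_union h1 k1) (by
    intro x hx y hy
    rw [mem_union] at hx hy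
    rcases hx with hx | hx <;> rcases hy with hy | hy
    · exact h2 x hx y hy
    · exact hn x (h1 hx) y (k1 hy)
    · exact fun h => hn y (h1 hy) x (k1 hx) h.symm
    · exact k2 x hx y hy)
  rw [card_union_of_disjoint (hd.mono h1 k1)] at this
  omega

theorem not_conn {S : Finset V} (h : ¬Conn G S) :
    ∃ A B, A.Nonempty ∧ B.Nonempty ∧ Disjoint A B ∧ A ∪ B = S ∧ NoE G A B := by
  simp only [Conn, not_forall, not_exists, not_and] at h
  obtain ⟨A, hA, hne, hne2, hh⟩ := h
  refine ⟨A, S \ A, hne, ?_, disjoint_sdiff, union_sdiff_of_subset hA, hh⟩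
  rw [sdiff_nonempty]
  exact fun h => hne2 (Subset.antisymm hA h)

theorem Conn.reach {S X : Finset V} (hS : Conn G S) (hX : X ⊆ S) (hXne : X.Nonempty) {y : V}
    (hy : y ∈ S) :
    ∃ l u, IsP G l u y ∧ u ∈ X ∧ (∀ x ∈ l, x ∈ S) ∧ ∀ x ∈ l, x ∈ X → x = u := by
  classical
  set A := S.filter fun y => ∃ l u, IsP G l u y ∧ u ∈ X ∧ (∀ x ∈ l, x ∈ S) ∧
    ∀ x ∈ l, x ∈ X → x = u with hA
  have hXA : ∀ x ∈ X, x ∈ A := fun x hx => mem_filter.mpr
    ⟨hX hx, [x], x, isP_singleton x, hx, by simp [hX hx], by simp⟩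
  by_cases e : A = S
  · rw [← e] at hy; exact (mem_filter.mp hy).2
  exfalso
  obtain ⟨a, ha, b, hb, hab⟩ := hS A (filter_subset _ _) (hXne.mono hXA) e
  obtain ⟨hbS, hbA⟩ := mem_sdiff.mp hb
  obtain ⟨-, l, u, hl, hu, hlS, hlX⟩ := mem_filter.mp ha
  refine hbA (mem_filter.mpr ⟨hbS, ?_⟩)
  by_cases hbl : b ∈ l
  · obtain ⟨L, R, rfl⟩ := List.append_of_mem hbl
    exact ⟨L ++ [b], u, hl.left, hu, fun x hx => hlS x (by simp at hx ⊢; tauto),
      fun x hx => hlX x (by simp at hx ⊢; tauto)⟩
  · have hbX : b ∉ X := fun h => hbA (hXA b h)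
    refine ⟨l ++ [b], u, hl.concat hab hbl, hu, ?_, ?_⟩
    · intro x hx; simp at hx; rcases hx with hx | rfl
      · exact hlS x hx
      · exact hbS
    · intro x hx hxX; simp at hx; rcases hx with hx | rfl
      · exact hlX x hx hxX
      · exact absurd hxX hbX

end Vale.Agent.P048.Cycle
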