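import Vale.Agent.P048.Cycle.Basic

/-!
A two-coloured connected set with a long cycle and a small independence number has, for every
length below that of the cycle, a path of this length whose ends have different colours.
-/

namespace Vale.Agent.P048.Cycle

open Finset

variable {V : Type*} {G : SimpleGraph V}

/-- A residue class meets every interval of length at least the modulus. -/
theorem exists_res {g lo hi : ℕ} (hg : 0 < g) (h : lo + g ≤ hi) (x : ℕ) :
    ∃ s, lo ≤ s ∧ s < hi ∧ s % g = x % g := by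
  refine ⟨lo + (x + g * lo - lo) % g, by omega, ?_, ?_⟩
  · have := Nat.mod_lt (x + g * lo - lo) hg; omega
  · have h1 : lo ≤ x + g * lo := le_add_of_nonneg_of_le (Nat.zero_le _) (Nat.le_mul_of_pos_left _ hg)
    rw [Nat.add_mod_mod, Nat.add_sub_cancel' h1, Nat.add_mul_mod_self_left]

variable {f : ℕ → V} {L : ℕ}

theorem per_mod (hper : ∀ i, f (i + L) = f i) (i : ℕ) : f (i % L) = f i :=
  (show Function.Periodic f L from hper).map_mod_nat i

theorem inj_window (hper : ∀ i, f (i + L) = f i)
    (hinj : ∀ i j, i < L → j < L → f i = f j → i = j) {i j : ℕ} (e : f i = f j)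
    (h1 : i < j + L) (h2 : j < i + L) : i = j := by
  rcases Nat.eq_zero_or_pos L with rfl | hL
  · omega
  have h := hinj _ _ (Nat.mod_lt i hL) (Nat.mod_lt j hL) (by rw [per_mod hper, per_mod hper, e])
  rcases le_total i j with hij | hij
  · have := Nat.sub_mod_eq_zero_of_mod_eq h.symm
    rw [Nat.mod_eq_of_lt (show j - i < L by omega)] at this
    omega
  · have := Nat.sub_mod_eq_zero_of_mod_eq h
    rw [Nat.mod_eq_of_lt (show i - j < L by omega)] at this
    omega

theorem isP_arc (hper : ∀ i, f (i + L) = f i)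
    (hinj : ∀ i j, i < L → j < L → f i = f j → i = j) (hadj : ∀ i, G.Adj (f i) (f (i + 1)))
    {a b : ℕ} (hab : a ≤ b) (hbL : b < a + L) : IsP G (sg f a b) (f a) (f b) :=
  isP_sg hab (fun i j h1 h2 h3 h4 e => inj_window hper hinj e (by omega) (by omega))
    fun i _ _ => hadj i

section Chord

variable {p g e : ℕ} {w : ℕ → Bool} {S : Finset V}

/-- Period data of the colour word of a cycle with a chord from `0` to `e`. -/
structure Word (G : SimpleGraph V) (S : Finset V) (f : ℕ → V) (L p g : ℕ) (col : V → Bool) :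
    Prop where
  per : ∀ i, f (i + L) = f i
  inj : ∀ i j, i < L → j < L → f i = f j → i = j
  adj : ∀ i, G.Adj (f i) (f (i + 1))
  mem : ∀ i, f i ∈ S
  none : ¬∃ l u v, IsP G l u v ∧ l.length = p + 1 ∧ (∀ x ∈ l, x ∈ S) ∧ col u ≠ col v
  pos : 0 < g
  wg : ∀ i, col (f (i + g)) = col (f i)
  least : ∀ d, 0 < d → (∀ i, col (f (i + d)) = col (f i)) → g ≤ d

namespace Word

variable {col : V → Bool} (W : Word G S f L p g col)
include W

theorem col_congr {i j : ℕ} (h : i % g = j % g) : col (f i) = col (f j) := by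
  have hp : Function.Periodic (fun i => col (f i)) g := W.wg
  have h1 := hp.map_mod_nat i
  have h2 := hp.map_mod_nat j
  rw [← h1, ← h2, h]

theorem dvd {d : ℕ} (h : ∀ i, col (f (i + d)) = col (f i)) : g ∣ d := by
  refine Nat.dvd_of_mod_eq_zero (Nat.eq_zero_of_not_pos fun hd => ?_)
  have h' : g ≤ d % g := by
    refine W.least _ hd fun i => ?_
    refine Eq.trans ?_ (h i)
    exact W.col_congr (Nat.add_mod_mod i d g)
  exact absurd h' (not_le.2 (Nat.mod_lt d W.pos))

theorem same {l : List V} {u v : V} (hl : IsP G l u v) (hlen : l.length = p + 1)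
    (hmem : ∀ x ∈ l, ∃ i, f i = x) : col u = col v := by
  by_contra hne
  exact W.none ⟨l, u, v, hl, hlen, fun x hx => by obtain ⟨i, rfl⟩ := hmem x hx; exact W.mem i, hne⟩

/-- Two disjoint arcs ending at the ends of a chord. -/
theorem two_arcs {a b c d : ℕ} {l₁ l₂ : List V} (h₁ : IsP G l₁ (f a) (f b))
    (h₂ : IsP G l₂ (f c) (f d)) (hbc : G.Adj (f b) (f c)) {A₁ B₁ A₂ B₂ : ℕ}
    (m₁ : ∀ x ∈ l₁, x ∈ sg f A₁ B₁) (m₂ : ∀ x ∈ l₂, x ∈ sg f A₂ B₂)
    (hd : ∀ i j, A₁ ≤ i → i ≤ B₁ → A₂ ≤ j → j ≤ B₂ → f i ≠ f j)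
    (hlen : l₁.length + l₂.length = p + 1) : col (f a) = col (f d) := by
  refine W.same (h₁.append h₂ hbc ?_) (by simpa using hlen) fun x hx => ?_
  · intro x hx hx'
    obtain ⟨i, hi1, hi2, rfl⟩ := mem_sg.1 (m₁ x hx)
    obtain ⟨j, hj1, hj2, he⟩ := mem_sg.1 (m₂ _ hx')
    exact hd i j hi1 hi2 hj1 hj2 he.symm
  · rcases List.mem_append.1 hx with h | h
    · obtain ⟨i, -, -, hi⟩ := mem_sg.1 (m₁ x h); exact ⟨i, hi⟩
    · obtain ⟨i, -, -, hi⟩ := mem_sg.1 (m₂ x h); exact ⟨i, hi⟩

theorem period_of_chord (hch : G.Adj (f 0) (f e)) (hgp : g ∣ p) (hp : 1 ≤ p) (hpe : p ≤ e)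
    (heL : e < L) : g ∣ e + 1 := by
  refine W.dvd fun i => ?_
  set s := i % p with hs_def
  have hs : s < p := Nat.mod_lt i hp
  have h := W.two_arcs (isP_arc W.per W.inj W.adj (a := 0) (b := s) (by omega) (by omega)).reverse
    (isP_arc W.per W.inj W.adj (a := e - (p - 1 - s)) (b := e) (by omega) (by omega)).reverse
    hch (fun x hx => List.mem_reverse.1 hx) (fun x hx => List.mem_reverse.1 hx)
    (fun a b h1 h2 h3 h4 he => by
      have := inj_window W.per W.inj he (by omega) (by omega); omega)
    (by simp only [List.length_reverse, length_sg]; omega)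
  obtain ⟨k, rfl⟩ := hgp
  have hi : s % g = i % g := Nat.mod_mod_of_dvd i (dvd_mul_right g k)
  rw [W.col_congr hi.symm, h]
  refine W.col_congr ?_
  have : e - (g * k - 1 - s) + g * k = s + (e + 1) := by omega
  have h3 := Nat.add_mul_mod_self_left (e - (g * k - 1 - s)) g k
  rw [this] at h3
  rw [← h3, Nat.add_mod, ← hi, ← Nat.add_mod]

/-- Arcs on both sides of the chord going in the positive direction. -/
theorem refl_pos (hch : G.Adj (f 0) (f e)) (hgp : g ∣ p) (he : g ≤ e) (he' : g + e ≤ L)
    (hp : g ≤ p) (hpL : p + g ≤ L) {x y : ℕ} (hxy : (x + y + 1) % g = e % g) :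
    col (f x) = col (f y) := by
  obtain ⟨s, hs1, hs2, hs3⟩ :=
    exists_res W.pos (show p - (L - e) + g ≤ min p e by omega) x
  have h := W.two_arcs (isP_arc W.per W.inj W.adj (a := 0) (b := s) (by omega) (by omega)).reverse
    (isP_arc W.per W.inj W.adj (a := e) (b := e + (p - 1 - s)) (by omega) (by omega))
    hch (fun x hx => List.mem_reverse.1 hx) (fun x hx => hx)
    (fun a b h1 h2 h3 h4 h5 => by
      have := inj_window W.per W.inj h5 (by omega) (by omega); omega)
    (by simp only [List.length_reverse, length_sg]; omega)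
  rw [W.col_congr hs3.symm, h]
  refine W.col_congr ?_
  have h2 : (s + 1) + (e + (p - 1 - s)) ≡ (s + 1) + y [MOD g] := by
    obtain ⟨k, rfl⟩ := hgp
    rw [show (s + 1) + (e + (g * k - 1 - s)) = e + g * k by omega,
      show (s + 1) + y = s + (y + 1) by omega]
    show (e + g * k) % g = (s + (y + 1)) % g
    rw [Nat.add_mul_mod_self_left, ← hxy, Nat.add_assoc, Nat.add_mod x, ← hs3, ← Nat.add_mod]
  exact h2.add_left_cancel'

/-- Arcs on both sides of the chord going in the negative direction. -/
theorem refl_neg (hch : G.Adj (f 0) (f e)) (hgp : g ∣ p) (hgL : g ∣ L) (he : g ≤ e)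
    (he' : g + e ≤ L) (hp : g ≤ p) (hpL : p + g ≤ L) {x y : ℕ}
    (hxy : (x + y) % g = (e + 1) % g) : col (f x) = col (f y) := by
  obtain ⟨t, ht1, ht2, ht3⟩ :=
    exists_res W.pos (show p - (L - e) + g ≤ min p e by omega) (e + g * y - y)
  have hch' : G.Adj (f L) (f e) := by
    have := W.per 0
    rw [Nat.zero_add] at this
    rwa [this]
  have h := W.two_arcs
    (isP_arc W.per W.inj W.adj (a := L - (p - 1 - t)) (b := L) (by omega) (by omega))
    (isP_arc W.per W.inj W.adj (a := e - t) (b := e) (by omega) (by omega)).reverse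
    hch' (fun x hx => hx) (fun x hx => List.mem_reverse.1 hx)
    (fun a b h1 h2 h3 h4 h5 => by
      have := inj_window W.per W.inj h5 (by omega) (by omega); omega)
    (by simp only [List.length_reverse, length_sg]; omega)
  have hy : y ≤ e + g * y := le_add_of_nonneg_of_le (Nat.zero_le _) (Nat.le_mul_of_pos_left _ W.pos)
  have ey : t + y ≡ e [MOD g] := by
    show (t + y) % g = e % g
    rw [Nat.add_mod, ht3, ← Nat.add_mod, Nat.sub_add_cancel hy, Nat.add_mul_mod_self_left]
  have h1 : t + (e - t) ≡ t + y [MOD g] := by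
    rw [show t + (e - t) = e by omega]; exact ey.symm
  rw [← W.col_congr (show (e - t) % g = y % g from h1.add_left_cancel'), ← h]
  refine W.col_congr ?_
  have h2 : (x + y) + (p - 1 - t) ≡ (L - (p - 1 - t) + y) + (p - 1 - t) [MOD g] := by
    obtain ⟨k, rfl⟩ := hgp
    obtain ⟨k', rfl⟩ := hgL
    have h3 : (x + y) + (g * k - 1 - t) ≡ (e + 1) + (g * k - 1 - t) [MOD g] :=
      Nat.ModEq.add_right _ hxy
    have h4 : (e + 1) + (g * k - 1 - t) ≡ y + g * k [MOD g] := by
      have h5 : (e + 1) + (g * k - 1 - t) + t ≡ y + g * k + t [MOD g] := by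
        rw [show (e + 1) + (g * k - 1 - t) + t = e + g * k by omega,
          show y + g * k + t = t + y + g * k by omega]
        exact ey.symm.add_right _
      exact h5.add_right_cancel'
    refine (h3.trans h4).trans ?_
    rw [show g * k' - (g * k - 1 - t) + y + (g * k - 1 - t) = y + g * k' by omega]
    show (y + g * k) % g = (y + g * k') % g
    rw [Nat.add_mul_mod_self_left, Nat.add_mul_mod_self_left]
  exact (h2.add_right_cancel').add_right_cancel'

end Word

end Chord

variable [DecidableEq V]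

theorem colour_path {S : Finset V} (hS : Conn G S) {p : ℕ}
    (hper : ∀ i, f (i + L) = f i) (hinj : ∀ i j, i < L → j < L → f i = f j → i = j)
    (hadj : ∀ i, G.Adj (f i) (f (i + 1))) (hmem : ∀ i, f i ∈ S) (ha : 2 * al G S + 2 ≤ L)
    (hp : 1 ≤ p) (hpL : p < L) (col : V → Bool) (hcol : ∃ x ∈ S, ∃ y ∈ S, col x ≠ col y) :
    ∃ l u v, IsP G l u v ∧ l.length = p + 1 ∧ (∀ x ∈ l, x ∈ S) ∧ col u ≠ col v := by
  classical
  by_cases hmono : ∀ i, col (f i) = col (f 0)
  · obtain ⟨y, hy, hyc⟩ : ∃ y ∈ S, col y ≠ col (f 0) := by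
      obtain ⟨a, haS, b, hbS, hab⟩ := hcol
      by_cases h : col a = col (f 0)
      · exact ⟨b, hbS, fun h' => hab (h.trans h'.symm)⟩
      · exact ⟨a, haS, h⟩
    obtain ⟨l, u, hl, hu, hlS, hlX⟩ := hS.reach (X := (Finset.range L).image f)
      (by intro x hx; obtain ⟨i, -, rfl⟩ := Finset.mem_image.1 hx; exact hmem i)
      ⟨f 0, Finset.mem_image.2 ⟨0, by simp; omega, rfl⟩⟩ hy
    obtain ⟨i₀, hi₀, rfl⟩ := Finset.mem_image.1 hu
    obtain ⟨q, hq, hq0, hqe, hql⟩ := hl.toPF
    have hex : ∃ k, col (q k) ≠ col (f 0) := ⟨_, by rw [hqe]; exact hyc⟩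
    set k := Nat.find hex
    have hk : col (q k) ≠ col (f 0) := Nat.find_spec hex
    have hkl : k ≤ l.length - 1 := Nat.find_le (by rw [hqe]; exact hyc)
    have hlt : ∀ i, i < k → col (q i) = col (f 0) := fun i hi => not_not.1 (Nat.find_min hex hi)
    by_cases hkp : p ≤ k
    · refine ⟨sg q (k - p) k, _, _, hq.sg (Nat.sub_le k p) hkl, by rw [length_sg]; omega, ?_, ?_⟩
      · intro x hx
        obtain ⟨i, -, hi, rfl⟩ := mem_sg.1 hx
        exact hlS _ ((hql _).2 ⟨i, by omega, rfl⟩)
      · rw [hlt (k - p) (by omega)]; exact hk.symm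
    · have hk0 : 0 < k := Nat.pos_of_ne_zero fun h => hk (by rw [h, hq0]; exact hmono i₀)
      have hlast : G.Adj (f (i₀ + L - 1)) (q 0) := by
        have h := hadj (i₀ + L - 1)
        rw [show i₀ + L - 1 + 1 = i₀ + L by omega, hper] at h
        rwa [hq0]
      refine ⟨sg f (i₀ + L - (p - k)) (i₀ + L - 1) ++ sg q 0 k, _, _,
        (isP_arc hper hinj hadj (by omega) (by omega)).append (hq.sg (Nat.zero_le k) hkl) hlast ?_,
        by simp only [List.length_append, length_sg]; omega, ?_, ?_⟩
      · intro x hx hx'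
        obtain ⟨i, hi1, hi2, rfl⟩ := mem_sg.1 hx
        obtain ⟨j, -, hj, he⟩ := mem_sg.1 hx'
        have hX : f i ∈ (Finset.range L).image f :=
          Finset.mem_image.2 ⟨i % L, Finset.mem_range.2 (Nat.mod_lt _ (by omega)), per_mod hper i⟩
        have h := hlX _ ((hql _).2 ⟨j, by omega, he⟩) hX
        have h' : f i = f (i₀ + L) := by rw [hper]; exact h
        have := inj_window hper hinj h' (by omega) (by omega)
        omega
      · intro x hx
        rcases List.mem_append.1 hx with h | h
        · obtain ⟨i, -, -, rfl⟩ := mem_sg.1 h; exact hmem i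
        · obtain ⟨i, -, hi, rfl⟩ := mem_sg.1 h
          exact hlS _ ((hql _).2 ⟨i, by omega, rfl⟩)
      · rw [hmono]; exact hk.symm
  · by_contra hnone
    have hwp : ∀ i, col (f (i + p)) = col (f i) := by
      intro i
      by_contra h
      exact hnone ⟨sg f i (i + p), _, _, isP_arc hper hinj hadj (by omega) (by omega),
        by rw [length_sg]; omega, fun x hx => by obtain ⟨j, -, -, rfl⟩ := mem_sg.1 hx; exact hmem j,
        fun h' => h h'.symm⟩
    obtain ⟨g, ⟨hg0, hgw⟩, hgmin⟩ : ∃ g, (0 < g ∧ ∀ i, col (f (i + g)) = col (f i)) ∧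
        ∀ d, 0 < d → (∀ i, col (f (i + d)) = col (f i)) → g ≤ d :=
      have hex : ∃ g, 0 < g ∧ ∀ i, col (f (i + g)) = col (f i) := ⟨p, hp, hwp⟩
      ⟨Nat.find hex, Nat.find_spec hex, fun d h1 h2 => Nat.find_le ⟨h1, h2⟩⟩
    have W0 : Word G S f L p g col := ⟨hper, hinj, hadj, hmem, hnone, hg0, hgw, hgmin⟩
    have hg2 : 2 ≤ g := by
      by_contra h
      exact hmono fun i => W0.col_congr (by rw [show g = 1 by omega]; simp [Nat.mod_one])
    -- a chord of even span inside the cycle
    obtain ⟨a, e, he2, heL, hee, hch⟩ : ∃ a e, 2 ≤ e ∧ e + 2 ≤ L ∧ 2 ∣ e ∧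
        G.Adj (f a) (f (a + e)) := by
      by_contra hno
      simp only [not_exists, not_and] at hno
      have hI : Indep G ((Finset.range (al G S + 1)).image fun i => f (2 * i)) := by
        have key : ∀ i j, i < j → j ≤ al G S → ¬G.Adj (f (2 * i)) (f (2 * j)) := fun i j hij hj => by
          have := hno (2 * i) (2 * (j - i)) (by omega) (by omega) (dvd_mul_right 2 _)
          rwa [show 2 * i + 2 * (j - i) = 2 * j by omega] at this
        intro x hx y hy hxy
        obtain ⟨i, hi, rfl⟩ := Finset.mem_image.1 hx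
        obtain ⟨j, hj, rfl⟩ := Finset.mem_image.1 hy
        rw [Finset.mem_range] at hi hj
        rcases lt_trichotomy i j with h | h | h
        · exact key i j h (by omega) hxy
        · subst h; exact G.irrefl hxy
        · exact key j i h (by omega) hxy.symm
      have h := le_al (S := S) (fun x hx => by
        obtain ⟨i, -, rfl⟩ := Finset.mem_image.1 hx; exact hmem _) hI
      rw [Finset.card_image_of_injOn (fun i hi j hj h => by
        simp only [Finset.coe_range, Set.mem_Iio] at hi hj
        have := inj_window hper hinj (show f (2 * i) = f (2 * j) from h) (by omega) (by omega)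
        omega), Finset.card_range] at h
      omega
    set h : ℕ → V := fun i => f (i + a) with hdef
    have mkW : ∀ b, Word G S (fun i => f (i + b)) L p g col := by
      intro b
      refine ⟨fun i => ?_, fun i j hi hj he => ?_, fun i => ?_, fun i => hmem _, hnone, hg0,
        fun i => ?_, fun d hd hd' => hgmin d hd fun i => ?_⟩
      · show f (i + L + b) = f (i + b)
        rw [Nat.add_right_comm, hper]
      · have := inj_window hper hinj he (by omega) (by omega)
        omega
      · show G.Adj (f (i + b)) (f (i + 1 + b))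
        rw [Nat.add_right_comm]; exact hadj _
      · show col (f (i + g + b)) = col (f (i + b))
        rw [Nat.add_right_comm, hgw]
      · have hz : ∀ t, col (f (t + g * b)) = col (f t) := fun t =>
          W0.col_congr (Nat.add_mul_mod_self_left t g b)
        have hb : b ≤ i + g * b := le_add_of_nonneg_of_le (Nat.zero_le _)
          (Nat.le_mul_of_pos_left _ hg0)
        have := hd' (i + g * b - b)
        rw [show i + g * b - b + d + b = i + d + g * b by omega,
          Nat.sub_add_cancel hb, hz, hz] at this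
        exact this
    have W1 := mkW a
    have W2 := mkW (a + e)
    have hch1 : G.Adj (f (0 + a)) (f (e + a)) := by simpa [Nat.add_comm e a] using hch
    have hgp : g ∣ p := W0.dvd hwp
    have hgL : g ∣ L := W0.dvd fun i => by rw [hper]
    have hgle : g ≤ p := Nat.le_of_dvd hp hgp
    have hpgL : p + g ≤ L := by
      obtain ⟨k, rfl⟩ := hgp
      obtain ⟨k', rfl⟩ := hgL
      have : g * (k + 1) ≤ g * k' := Nat.mul_le_mul_left g (Nat.lt_of_mul_lt_mul_left hpL)
      linarith
    have short : ∀ (b d : ℕ), G.Adj (f (0 + b)) (f (d + b)) → 2 ≤ d → d + 2 ≤ L → g + d ≤ L := by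
      intro b d hbd hd2 hdL
      by_contra hlt
      have h1 := (mkW b).period_of_chord hbd hgp hp (by omega) (by omega)
      have h2 : g ∣ L - (d + 1) := Nat.dvd_sub hgL h1
      have := Nat.le_of_dvd (by omega) h2
      omega
    have hge' : g + e ≤ L := short a e hch1 he2 heL
    have hge : g + (L - e) ≤ L := short (a + e) (L - e) (by
      rw [show L - e + (a + e) = a + L by omega, hper, Nat.zero_add]
      exact hch.symm) (by omega) (by omega)
    have per2 : ∀ i, col (f (i + 2)) = col (f i) := by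
      intro i
      have hb : a ≤ i + g * a := le_add_of_nonneg_of_le (Nat.zero_le _)
        (Nat.le_mul_of_pos_left _ hg0)
      set x := i + g * a - a
      have hx1 : x + 1 ≤ e + g * (x + 1) := le_add_of_nonneg_of_le (Nat.zero_le _)
        (Nat.le_mul_of_pos_left _ hg0)
      set y := e + g * (x + 1) - (x + 1)
      have h1 := W1.refl_pos (e := e) hch1 hgp (by omega) hge' hgle hpgL (x := x) (y := y)
        (by rw [show x + y + 1 = e + g * (x + 1) by omega, Nat.add_mul_mod_self_left])
      have h2 := W1.refl_neg (e := e) hch1 hgp hgL (by omega) hge' hgle hpgL (x := x + 2) (y := y)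
        (by rw [show x + 2 + y = e + 1 + g * (x + 1) by omega, Nat.add_mul_mod_self_left])
      have h3 : col (f (x + a)) = col (f (x + 2 + a)) := h1.trans h2.symm
      rw [show x + a = i + g * a by omega, show x + 2 + a = i + 2 + g * a by omega,
        W0.col_congr (Nat.add_mul_mod_self_left i g a),
        W0.col_congr (Nat.add_mul_mod_self_left (i + 2) g a)] at h3
      exact h3.symm
    obtain rfl : g = 2 := le_antisymm (hgmin 2 (by omega) per2) hg2
    have h01 := W1.refl_pos (e := e) hch1 hgp (by omega) hge' hgle hpgL (x := 0) (y := 1) (by omega)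
    refine hmono fun i => ?_
    have key : ∀ j, col (f (j + a)) = col (f (0 + a)) := by
      intro j
      rcases Nat.mod_two_eq_zero_or_one j with hj | hj
      · exact W1.col_congr (by omega)
      · exact (W1.col_congr (j := 1) (by omega)).trans h01.symm
    have hb : a ≤ i + 2 * a := by omega
    have hi := key (i + 2 * a - a)
    have h0 := key (2 * a - a)
    rw [Nat.sub_add_cancel hb, W0.col_congr (Nat.add_mul_mod_self_left i 2 a)] at hi
    rw [Nat.sub_add_cancel (by omega : a ≤ 2 * a)] at h0
    rw [hi, ← h0]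
    exact W0.col_congr (by omega)

end Vale.Agent.P048.Cycle
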