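import Vale.Agent.P048.Cycle.Basic

/-!
A connected finset with minimum degree `d` has a path with `min |S| (2d+1)` vertices.
-/

namespace Vale.Agent.P048.Cycle

open Finset

variable {V : Type*} [DecidableEq V] {G : SimpleGraph V}

theorem PF.card_le {f : ℕ → V} {l : ℕ} {S : Finset V} (h : PF G f l) (hS : ∀ i, i ≤ l → f i ∈ S) :
    l + 1 ≤ S.card := by
  have : ((range (l + 1)).image f).card = l + 1 := by
    rw [card_image_of_injOn, card_range]
    intro i hi j hj e
    simp at hi hj
    exact h.1 i j (by omega) (by omega) e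
  rw [← this]
  refine card_le_card fun x hx => ?_
  obtain ⟨i, hi, rfl⟩ := mem_image.mp hx
  exact hS i (by simp at hi; omega)

theorem PF.reverse {f : ℕ → V} {l : ℕ} (h : PF G f l) : PF G (fun i => f (l - i)) l := by
  refine ⟨fun i j hi hj e => ?_, fun i hi => ?_⟩
  · have := h.1 (l - i) (l - j) (by omega) (by omega) e; omega
  · have := h.2 (l - (i + 1)) (by omega)
    rw [show l - (i + 1) + 1 = l - i by omega] at this
    exact this.symm

theorem PF.prepend {f : ℕ → V} {l : ℕ} (h : PF G f l) {y : V} (hy : G.Adj (f 0) y)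
    (hne : ∀ i, i ≤ l → f i ≠ y) : PF G (fun i => if i = 0 then y else f (i - 1)) (l + 1) := by
  refine ⟨fun i j hi hj e => ?_, fun i hi => ?_⟩
  · simp only at e
    split_ifs at e with a b b
    · omega
    · exact absurd e.symm (hne _ (by omega))
    · exact absurd e (hne _ (by omega))
    · have := h.1 _ _ (by omega) (by omega) e; omega
  · simp only [Nat.succ_ne_zero, if_false, Nat.add_sub_cancel]
    split_ifs with a
    · subst a; exact hy.symm
    · have := h.2 (i - 1) (by omega)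
      rwa [show i - 1 + 1 = i by omega] at this

/-- A longest path. -/
theorem exists_longest {S : Finset V} (hne : S.Nonempty) :
    ∃ (f : ℕ → V) (l : ℕ), PF G f l ∧ (∀ i, i ≤ l → f i ∈ S) ∧
      ∀ (g : ℕ → V) (m : ℕ), PF G g m → (∀ i, i ≤ m → g i ∈ S) → m ≤ l := by
  classical
  let P : ℕ → Prop := fun l => ∃ f : ℕ → V, PF G f l ∧ ∀ i, i ≤ l → f i ∈ S
  obtain ⟨x, hx⟩ := hne
  have h0 : P 0 := ⟨fun _ => x, ⟨fun i j hi hj _ => by omega, fun i hi => by omega⟩, fun _ _ => hx⟩
  obtain ⟨f, h1, h2⟩ := Nat.findGreatest_spec (P := P) (Nat.zero_le S.card) h0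
  exact ⟨f, Nat.findGreatest P S.card, h1, h2, fun g m hg hgS =>
    Nat.le_findGreatest (by have := hg.card_le hgS; omega) ⟨g, hg, hgS⟩⟩

theorem end_nbr {S : Finset V} {f : ℕ → V} {l : ℕ} (h : PF G f l) (hS : ∀ i, i ≤ l → f i ∈ S)
    (hmax : ∀ (g : ℕ → V) (m : ℕ), PF G g m → (∀ i, i ≤ m → g i ∈ S) → m ≤ l)
    {y : V} (hy : y ∈ S) (hadj : G.Adj (f 0) y) : ∃ i, 1 ≤ i ∧ i ≤ l ∧ f i = y := by
  by_contra hc
  have hne : ∀ i, i ≤ l → f i ≠ y := by
    intro i hi e
    rcases Nat.eq_zero_or_pos i with rfl | h1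
    · exact hadj.ne e
    · exact hc ⟨i, h1, hi, e⟩
  have := hmax _ _ (h.prepend hadj hne) (fun i hi => by
    split_ifs with a
    · exact hy
    · exact hS _ (by omega))
  omega

theorem degIn_le_filter {S : Finset V} {f : ℕ → V} {l : ℕ} {x : V} {p : ℕ → Prop}
    [DecidablePred p] (h : ∀ y ∈ S, G.Adj x y → ∃ i, i < l ∧ p i ∧ f i = y) :
    degIn G S x ≤ ((range l).filter p).card := by
  classical
  unfold degIn
  refine le_trans (card_le_card ?_) (card_image_le (f := f))
  intro y hy
  obtain ⟨hy, hxy⟩ := mem_filter.mp hy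
  obtain ⟨i, hi, hp, e⟩ := h y hy hxy
  exact mem_image.mpr ⟨i, mem_filter.mpr ⟨mem_range.mpr hi, hp⟩, e⟩

/-- A closed path which misses a vertex of a connected finset gives a longer path. -/
theorem cyc_extend {S : Finset V} (hS : Conn G S) {c : List V} {u v : V} (hc : IsP G c u v)
    (hvu : G.Adj v u) (hcS : ∀ x ∈ c, x ∈ S) (hlt : c.length < S.card) :
    ∃ (g : ℕ → V), PF G g c.length ∧ ∀ i, i ≤ c.length → g i ∈ S := by
  classical
  have hne : c.toFinset ≠ S := by
    intro e; rw [← e, List.toFinset_card_of_nodup hc.2.1] at hlt; omega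
  obtain ⟨a, ha, b, hb, hab⟩ := hS c.toFinset (fun x hx => hcS x (List.mem_toFinset.mp hx))
    ⟨u, List.mem_toFinset.mpr hc.head_mem⟩ hne
  obtain ⟨hbS, hbc⟩ := mem_sdiff.mp hb
  rw [List.mem_toFinset] at ha hbc
  obtain ⟨A, B, rfl⟩ := List.append_of_mem ha
  have key : ∃ w, IsP G (a :: B ++ A) a w := by
    rcases List.eq_nil_or_concat A with rfl | ⟨A', q, rfl⟩
    · exact ⟨v, by simpa using hc.right⟩
    · have e : A'.concat q ++ a :: B = A' ++ q :: (a :: B) := by simp
      have h1 : IsP G (A'.concat q) u q := by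
        simpa using (e ▸ hc : IsP G (A' ++ q :: (a :: B)) u v).left
      exact ⟨q, hc.right.append h1 hvu fun x hx hx' =>
        List.disjoint_of_nodup_append hc.2.1 hx' hx⟩
  obtain ⟨w, hw⟩ := key
  have hcons := hw.cons hab.symm (by simp at hbc ⊢; tauto)
  obtain ⟨g, hg, -, -, hmem⟩ := hcons.toPF
  have hlen : (b :: (a :: B ++ A)).length - 1 = (A ++ a :: B).length := by simp; omega
  rw [hlen] at hg hmem
  refine ⟨g, hg, fun i hi => ?_⟩
  have := (hmem (g i)).mpr ⟨i, hi, rfl⟩
  simp only [List.mem_cons, List.mem_append, List.cons_append] at this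
  rcases this with e | e | e | e
  · exact e ▸ hbS
  · exact hcS _ (by simp [e])
  · exact hcS _ (by simp [e])
  · exact hcS _ (by simp [e])

theorem long_path {S : Finset V} (hS : Conn G S) (hne : S.Nonempty) {d : ℕ}
    (hd : ∀ x ∈ S, d ≤ degIn G S x) :
    ∃ (f : ℕ → V) (l : ℕ), PF G f l ∧ (∀ i, i ≤ l → f i ∈ S) ∧ min S.card (2 * d + 1) ≤ l + 1 := by
  classical
  obtain ⟨f, l, h, hfS, hmax⟩ := exists_longest (G := G) hne
  refine ⟨f, l, h, hfS, ?_⟩
  by_contra hlt
  have hl0 : l + 1 < S.card ∧ l < 2 * d := by omega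
  have hA : d ≤ ((range l).filter fun s => G.Adj (f l) (f s)).card := by
    refine (hd _ (hfS l le_rfl)).trans (degIn_le_filter (f := f) fun y hy hxy => ?_)
    obtain ⟨i, hi1, hi2, e⟩ := end_nbr h.reverse (fun i _ => hfS _ (by omega)) hmax hy
      (by simpa using hxy)
    exact ⟨l - i, by omega, by rw [e]; exact hxy, e⟩
  have hB : d ≤ ((range l).filter fun s => G.Adj (f 0) (f (s + 1))).card := by
    refine (hd _ (hfS 0 (by omega))).trans
      (degIn_le_filter (f := fun s => f (s + 1)) fun y hy hxy => ?_)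
    obtain ⟨i, hi1, hi2, e⟩ := end_nbr h hfS hmax hy hxy
    exact ⟨i - 1, by omega, by rw [Nat.sub_add_cancel hi1, e]; exact hxy,
      by simp only [Nat.sub_add_cancel hi1, e]⟩
  have hU := card_union_add_card_inter
    ((range l).filter fun s => G.Adj (f l) (f s))
    ((range l).filter fun s => G.Adj (f 0) (f (s + 1)))
  have hle : (((range l).filter fun s => G.Adj (f l) (f s)) ∪
      ((range l).filter fun s => G.Adj (f 0) (f (s + 1)))).card ≤ l := by
    refine (card_le_card (union_subset (filter_subset _ _) (filter_subset _ _))).trans ?_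
    rw [card_range]
  obtain ⟨s, hs⟩ := card_pos.mp (show 0 < (((range l).filter fun s => G.Adj (f l) (f s)) ∩
      ((range l).filter fun s => G.Adj (f 0) (f (s + 1)))).card by omega)
  simp only [mem_inter, mem_filter, mem_range] at hs
  obtain ⟨⟨hsl, hls⟩, -, h0s⟩ := hs
  have hcyc : IsP G (sg f 0 s ++ (sg f (s + 1) l).reverse) (f 0) (f (s + 1)) := by
    refine (h.sg (by omega) (by omega)).append ((h.sg (by omega) le_rfl).reverse) hls.symm ?_
    intro x hx hx'
    rw [mem_sg] at hx
    rw [List.mem_reverse, mem_sg] at hx'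
    obtain ⟨i, -, hi, rfl⟩ := hx
    obtain ⟨j, hj, hjl, e⟩ := hx'
    have := h.1 j i hjl (by omega) e
    omega
  have hlen : (sg f 0 s ++ (sg f (s + 1) l).reverse).length = l + 1 := by simp; omega
  obtain ⟨g, hg, hgS⟩ := cyc_extend hS hcyc h0s.symm (by
    intro x hx
    simp only [List.mem_append, List.mem_reverse, mem_sg] at hx
    rcases hx with ⟨i, -, hi, rfl⟩ | ⟨i, -, hi, rfl⟩
    · exact hfS i (by omega)
    · exact hfS i hi) (by omega)
  have := hmax g _ hg hgS
  omega

end Vale.Agent.P048.Cycle
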