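import Vale.Agent.P048.Cycle.Linkage
import Vale.Agent.P048.Cycle.LongPath

/-!
Dirac's theorem: a finset without cut vertices and of minimum degree `d` has a cycle with at least
`min |S| (2 * d)` vertices.
-/

namespace Vale.Agent.P048.Cycle

open Finset

variable {V : Type*} {G : SimpleGraph V}

/-- Two paths meeting only at their common end. -/
theorem IsP.glue {l l' : List V} {u v w : V} (h : IsP G l u v) (h' : IsP G l' v w)
    (hd : ∀ x ∈ l, x ∈ l' → x = v) :
    ∃ m, IsP G m u w ∧ ∀ x, x ∈ m ↔ x ∈ l ∨ x ∈ l' := by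
  obtain ⟨A, B, rfl⟩ := List.append_of_mem h.last_mem
  have hv : v ∉ A ∧ B = [] := by
    have hn := h.2.1
    have hl := h.2.2.2
    rcases List.eq_nil_or_concat B with rfl | ⟨B', q, rfl⟩
    · simp [List.nodup_append] at hn
      exact ⟨fun hv => (hn.2 _ hv) rfl, rfl⟩
    · simp [List.getLast?_append, List.getLast?_cons] at hl
      subst hl
      simp [List.nodup_append] at hn
  obtain ⟨hvA, rfl⟩ := hv
  obtain ⟨B', rfl⟩ : ∃ B', l' = v :: B' := by
    obtain ⟨-, -, hh, -⟩ := h'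
    cases l' with
    | nil => simp at hh
    | cons a t => simp at hh; exact ⟨t, by rw [hh]⟩
  refine ⟨A ++ v :: B', h.splice (A' := []) (by simpa using h') fun x hx hx' => ?_, fun x => ?_⟩
  · have := hd x hx' (List.mem_cons_of_mem _ hx)
    subst this
    exact (List.nodup_cons.mp h'.2.1).1 hx
  · simp only [List.mem_append, List.mem_cons, List.not_mem_nil, or_false]
    tauto

/-- Two paths with the same ends and nothing else in common form a cycle. -/
theorem IsP.close {l l' : List V} {u v : V} (h : IsP G l u v) (h' : IsP G l' v u) (hne : v ≠ u)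
    (hd : ∀ x ∈ l, x ∈ l' → x = u ∨ x = v) :
    ∃ c a b, IsP G c a b ∧ G.Adj b a ∧ ∀ x, x ∈ c ↔ x ∈ l ∨ x ∈ l' := by
  obtain ⟨A, rfl⟩ : ∃ A, l' = A ++ [u] := by
    rcases List.eq_nil_or_concat l' with e | ⟨A, q, rfl⟩
    · exact absurd e h'.ne_nil
    · have hl := h'.2.2.2
      simp at hl
      exact ⟨A, by simp [hl]⟩
  rcases List.eq_nil_or_concat A with rfl | ⟨A', z, rfl⟩
  · have hh := h'.2.2.1
    simp at hh
    exact absurd hh.symm hne
  have h1 : IsP G (A' ++ [z]) v z := by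
    have : IsP G (A' ++ z :: [u]) v u := by simpa using h'
    exact this.left
  have hzu : G.Adj z u := by
    have hc := h'.1
    simp only [List.concat_eq_append] at hc
    exact (List.isChain_append.1 hc).2.2 z (by simp) u (by simp)
  have hu : u ∉ A' ++ [z] := by
    intro hu
    have hn := h'.2.1
    simp only [List.concat_eq_append] at hn
    exact List.disjoint_of_nodup_append hn hu (by simp)
  obtain ⟨m, hm, hmem⟩ := h.glue h1 fun x hx hx' => by
    rcases hd x hx (by simp at hx' ⊢; tauto) with rfl | rfl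
    · exact absurd hx' hu
    · rfl
  refine ⟨m, u, z, hm, hzu, fun x => ?_⟩
  rw [hmem]
  have := h.head_mem
  simp only [List.concat_eq_append, List.mem_append, List.mem_singleton]
  constructor
  · tauto
  · rintro (hx | hx | rfl)
    · exact Or.inl hx
    · exact Or.inr hx
    · exact Or.inl this

variable {S X Y : Finset V} {l₁ l₂ : List V} {a₁ b₁ a₂ b₂ : V}

theorem Link.swap (h : Link G S X Y l₁ l₂ a₁ b₁ a₂ b₂) : Link G S X Y l₂ l₁ a₂ b₂ a₁ b₁ :=
  ⟨h.p₂, h.p₁, h.ha₂, h.ha₁, h.hb₂, h.hb₁, fun x hx => h.sub x hx.symm,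
    fun x hx hx' => h.disj x hx' hx, h.x₂, h.y₂, h.x₁, h.y₁⟩

theorem Link.symm (h : Link G S X Y l₁ l₂ a₁ b₁ a₂ b₂) :
    Link G S Y X l₁.reverse l₂.reverse b₁ a₁ b₂ a₂ :=
  ⟨h.p₁.reverse, h.p₂.reverse, h.hb₁, h.hb₂, h.ha₁, h.ha₂, fun x hx => h.sub x (by simpa using hx),
    fun x hx hx' => h.disj x (by simpa using hx) (by simpa using hx'),
    fun x hx => h.y₁ x (by simpa using hx), fun x hx => h.x₁ x (by simpa using hx),
    fun x hx => h.y₂ x (by simpa using hx), fun x hx => h.x₂ x (by simpa using hx)⟩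

/-- Reroute a linkage through a path, so that one of its paths starts where that path starts. -/
theorem Link.reroute (h : Link G S X Y l₁ l₂ a₁ b₁ a₂ b₂) {R : List V} {x y : V}
    (hR : IsP G R x y) (hx : x ∈ X) (hy : y ∈ Y) (hRS : ∀ v ∈ R, v ∈ S)
    (hRX : ∀ v ∈ R, v ∈ X → v = x) (hRY : ∀ v ∈ R, v ∈ Y → v = y) :
    ∃ m₁ m₂ d₁ c₂ d₂, Link G S X Y m₁ m₂ x d₁ c₂ d₂ ∧
      ((y = b₁ ∨ y = b₂) → y = d₁ ∨ y = d₂) := by
  classical
  by_cases hz : ∃ v ∈ R, v ∈ l₁ ∨ v ∈ l₂
  · obtain ⟨C, z, D, eR, hzl, hC⟩ := exists_split_first hz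
    wlog hz1 : z ∈ l₁ generalizing l₁ l₂ a₁ b₁ a₂ b₂
    · obtain ⟨m₁, m₂, d₁, c₂, d₂, hm, hmy⟩ := this h.swap
        (by obtain ⟨v, hv, hv'⟩ := hz; exact ⟨v, hv, hv'.symm⟩) hzl.symm
        (fun v hv hv' => hC v hv hv'.symm) (hzl.resolve_left hz1)
      exact ⟨m₁, m₂, d₁, c₂, d₂, hm, fun hy' => hmy hy'.symm⟩
    obtain ⟨A, B, rfl⟩ := List.append_of_mem hz1
    subst eR
    have hzB : z ∉ B := (List.nodup_cons.mp h.p₁.2.1.of_append_right).1
    have hdisjA : ∀ v ∈ A ++ [z], v ∉ B := fun v hv hv' => by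
      have hn := h.p₁.2.1
      rw [show A ++ z :: B = (A ++ [z]) ++ B by simp] at hn
      exact List.disjoint_of_nodup_append hn hv hv'
    have ha1 : a₁ ∈ A ++ [z] := by
      have hh := h.p₁.2.2.1
      rw [show A ++ z :: B = (A ++ [z]) ++ B by simp, List.head?_append_of_ne_nil _ (by simp)] at hh
      exact List.mem_of_mem_head? hh
    have p : IsP G (C ++ z :: B) x b₁ := hR.splice h.p₁ fun v hv hv' => by
      rcases List.mem_append.1 hv' with hv' | hv'
      · exact hC v hv' (Or.inl (by simp [hv]))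
      · rw [List.mem_singleton] at hv'
        exact hzB (hv' ▸ hv)
    refine ⟨C ++ z :: B, l₂, b₁, a₂, b₂, ⟨p, h.p₂, hx, h.ha₂, h.hb₁, h.hb₂, ?_, ?_, ?_, ?_,
      h.x₂, h.y₂⟩, id⟩
    · intro v hv
      simp only [List.mem_append, List.mem_cons] at hv
      rcases hv with (hv | hv | hv) | hv
      · exact hRS v (by simp [hv])
      · exact hRS v (by simp [hv])
      · exact h.sub v (Or.inl (by simp [hv]))
      · exact h.sub v (Or.inr hv)
    · intro v hv hv'
      simp only [List.mem_append, List.mem_cons] at hv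
      rcases hv with hv | hv | hv
      · exact hC v hv (Or.inr hv')
      · exact h.disj v (by simp [hv]) hv'
      · exact h.disj v (by simp [hv]) hv'
    · intro v hv hvX
      simp only [List.mem_append, List.mem_cons] at hv
      rcases hv with hv | hv | hv
      · exact hRX v (by simp [hv]) hvX
      · exact hRX v (by simp [hv]) hvX
      · exact absurd hv (hdisjA v (h.x₁ v (by simp [hv]) hvX ▸ ha1))
    · intro v hv hvY
      simp only [List.mem_append, List.mem_cons] at hv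
      rcases hv with hv | hv | hv
      · exfalso
        have hvy := hRY v (by simp [hv]) hvY
        have hl := hR.2.2.2
        rw [List.getLast?_append_of_ne_nil _ (by simp)] at hl
        exact List.disjoint_of_nodup_append hR.2.1 hv (hvy ▸ List.mem_of_mem_getLast? hl)
      · exact h.y₁ v (by simp [hv]) hvY
      · exact h.y₁ v (by simp [hv]) hvY
  · simp only [not_exists, not_and, not_or] at hz
    exact ⟨R, l₂, y, a₂, b₂, ⟨hR, h.p₂, hx, h.ha₂, hy, h.hb₂,
      fun v hv => hv.elim (hRS v) (fun hv => h.sub v (Or.inr hv)), fun v hv => (hz v hv).2,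
      hRX, hRY, h.x₂, h.y₂⟩, fun _ => Or.inl rfl⟩

variable [DecidableEq V]

omit [DecidableEq V] in
/-- A cycle list as a periodic function. -/
theorem exists_periodic {c : List V} {u v : V} (hc : IsP G c u v) (hvu : G.Adj v u)
    (hcS : ∀ x ∈ c, x ∈ S) {L : ℕ} (hL : c.length = L) :
    ∃ f : ℕ → V, (∀ i, f (i + L) = f i) ∧ (∀ i j, i < L → j < L → f i = f j → i = j) ∧
      (∀ i, G.Adj (f i) (f (i + 1))) ∧ ∀ i, f i ∈ S := by
  obtain ⟨g, hg, hg0, hgl, hmem⟩ := hc.toPF
  have hL0 : 0 < L := hL ▸ List.length_pos_of_ne_nil hc.ne_nil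
  rw [hL] at hg hgl hmem
  refine ⟨fun i => g (i % L), fun i => by simp only [Nat.add_mod_right], fun i j hi hj e => ?_,
    fun i => ?_, fun i => hcS _ ((hmem _).2 ⟨i % L, by have := Nat.mod_lt i hL0; omega, rfl⟩)⟩
  · simp only [Nat.mod_eq_of_lt hi, Nat.mod_eq_of_lt hj] at e
    exact hg.1 i j (by omega) (by omega) e
  · show G.Adj (g (i % L)) (g ((i + 1) % L))
    have hi := Nat.mod_lt i hL0
    by_cases h : i % L + 1 < L
    · rw [Nat.add_mod, Nat.mod_eq_of_lt (show 1 < L by omega), Nat.mod_eq_of_lt h]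
      exact hg.2 _ (by omega)
    · have he : (i + 1) % L = 0 := by
        rw [← Nat.mod_add_mod, show i % L + 1 = L by omega, Nat.mod_self]
      rw [he, show i % L = L - 1 by omega, hg0, hgl]
      exact hvu

/-- The cycle of the case without crossing. -/
theorem cycle_of_link {f : ℕ → V} {l : ℕ} (h : PF G f l) (hfS : ∀ i, i ≤ l → f i ∈ S) {a b d : ℕ}
    (hab : a ≤ b) (hbl : b ≤ l) {A B : Finset ℕ}
    (hA : ∀ i ∈ A, 1 ≤ i ∧ i ≤ a ∧ G.Adj (f 0) (f i)) (hAa : a ∈ A) (hAd : d ≤ A.card)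
    (hB : ∀ i ∈ B, b ≤ i ∧ i < l ∧ G.Adj (f l) (f i)) (hBb : b ∈ B) (hBd : d ≤ B.card)
    {l₁ l₂ : List V} {b₁ a₂ b₂ : V}
    (hlk : Link G S ((range (a + 1)).image f) ((Icc b l).image f) l₁ l₂ (f a) b₁ a₂ b₂)
    (hfb : f b = b₁ ∨ f b = b₂) :
    ∃ c u v, IsP G c u v ∧ G.Adj v u ∧ (∀ x ∈ c, x ∈ S) ∧ 2 * d + 1 ≤ c.length := by
  obtain ⟨s, hs, hsa⟩ := Finset.mem_image.1 hlk.ha₂
  rw [Finset.mem_range] at hs
  have hne : f a ≠ a₂ := fun e => hlk.disj _ hlk.p₁.head_mem (e ▸ hlk.p₂.head_mem)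
  have hs' : s < a := by
    rcases Nat.lt_or_ge s a with h' | h'
    · exact h'
    · exact absurd (show f a = a₂ by rw [← hsa, show s = a by omega]) hne
  obtain ⟨g, ⟨hgA, hgs⟩, hgmin⟩ : ∃ g, (g ∈ A ∧ s < g) ∧ ∀ i, i ∈ A → s < i → g ≤ i :=
    have hex : ∃ g, g ∈ A ∧ s < g := ⟨a, hAa, hs'⟩
    ⟨Nat.find hex, Nat.find_spec hex, fun i h1 h2 => Nat.find_le ⟨h1, h2⟩⟩
  obtain ⟨hg1, hga, hg0⟩ := hA g hgA
  -- the prefix, from `f a` to `f s`
  have hpre : IsP G ((sg f g a).reverse ++ sg f 0 s) (f a) a₂ := by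
    refine hsa ▸ (h.sg hga (by omega)).reverse.append (h.sg (Nat.zero_le s) (by omega)) hg0.symm ?_
    intro x hx hx'
    obtain ⟨i, hi1, hi2, rfl⟩ := mem_sg.1 (List.mem_reverse.1 hx)
    obtain ⟨j, -, hj, e⟩ := mem_sg.1 hx'
    have := h.1 j i (by omega) (by omega) e
    omega
  have hpreX : ∀ x ∈ (sg f g a).reverse ++ sg f 0 s, x ∈ (range (a + 1)).image f := by
    intro x hx
    rcases List.mem_append.1 hx with hx | hx
    · obtain ⟨i, -, hi, rfl⟩ := mem_sg.1 (List.mem_reverse.1 hx)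
      exact mem_image.2 ⟨i, mem_range.2 (by omega), rfl⟩
    · obtain ⟨i, -, hi, rfl⟩ := mem_sg.1 hx
      exact mem_image.2 ⟨i, mem_range.2 (by omega), rfl⟩
  -- the suffix, joining the two far ends
  have hbne : b₁ ≠ b₂ := fun e => hlk.disj _ hlk.p₁.last_mem (e ▸ hlk.p₂.last_mem)
  obtain ⟨t, ht, htb, hti⟩ : ∃ t, b < t ∧ t ≤ l ∧
      ((f b = b₁ ∧ f t = b₂) ∨ (f b = b₂ ∧ f t = b₁)) := by
    rcases hfb with e | e
    · obtain ⟨t, ht, hte⟩ := mem_image.1 hlk.hb₂
      rw [mem_Icc] at ht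
      refine ⟨t, lt_of_le_of_ne ht.1 fun e' => hbne ?_, ht.2, Or.inl ⟨e, hte⟩⟩
      rw [← e, ← hte, e']
    · obtain ⟨t, ht, hte⟩ := mem_image.1 hlk.hb₁
      rw [mem_Icc] at ht
      refine ⟨t, lt_of_le_of_ne ht.1 fun e' => hbne ?_, ht.2, Or.inr ⟨e, hte⟩⟩
      rw [← e, ← hte, e']
  obtain ⟨k, ⟨hkB, hkt⟩, hkmax⟩ : ∃ k, (k ∈ B ∧ k < t) ∧ ∀ i, i ∈ B → i < t → i ≤ k :=
    have hne : (B.filter fun i => i < t).Nonempty := ⟨b, mem_filter.2 ⟨hBb, ht⟩⟩
    ⟨(B.filter fun i => i < t).max' hne, mem_filter.1 (max'_mem _ hne),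
      fun i h1 h2 => le_max' _ i (mem_filter.2 ⟨h1, h2⟩)⟩
  obtain ⟨hkb, hkl, hkadj⟩ := hB k hkB
  have hsuf : IsP G (sg f b k ++ (sg f t l).reverse) (f b) (f t) := by
    refine (h.sg hkb (by omega)).append (h.sg htb le_rfl).reverse hkadj.symm ?_
    intro x hx hx'
    obtain ⟨i, hi1, hi2, rfl⟩ := mem_sg.1 hx
    obtain ⟨j, hj, hj', e⟩ := mem_sg.1 (List.mem_reverse.1 hx')
    have := h.1 j i (by omega) (by omega) e
    omega
  have hsufY : ∀ x ∈ sg f b k ++ (sg f t l).reverse, x ∈ (Icc b l).image f := by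
    intro x hx
    rcases List.mem_append.1 hx with hx | hx
    · obtain ⟨i, hi1, hi2, rfl⟩ := mem_sg.1 hx
      exact mem_image.2 ⟨i, mem_Icc.2 ⟨hi1, by omega⟩, rfl⟩
    · obtain ⟨i, hi1, hi2, rfl⟩ := mem_sg.1 (List.mem_reverse.1 hx)
      exact mem_image.2 ⟨i, mem_Icc.2 ⟨by omega, hi2⟩, rfl⟩
  obtain ⟨Q, hQ, hQm⟩ : ∃ Q, IsP G Q b₂ b₁ ∧ ∀ x, x ∈ Q ↔ x ∈ sg f b k ++ (sg f t l).reverse := by
    rcases hti with ⟨e1, e2⟩ | ⟨e1, e2⟩
    · exact ⟨_, e1 ▸ e2 ▸ hsuf.reverse, fun x => List.mem_reverse⟩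
    · exact ⟨_, e1 ▸ e2 ▸ hsuf, fun x => Iff.rfl⟩
  obtain ⟨P₁, hP₁, hP₁m⟩ := hlk.p₁.reverse.glue hpre fun x hx hx' =>
    hlk.x₁ x (List.mem_reverse.1 hx) (hpreX x hx')
  obtain ⟨P, hP, hPm⟩ := hP₁.glue hlk.p₂ fun x hx hx' => by
    rcases (hP₁m x).1 hx with hx | hx
    · exact absurd hx' (hlk.disj x (List.mem_reverse.1 hx))
    · exact hlk.x₂ x hx' (hpreX x hx)
  obtain ⟨c, u, v, hc, hvu, hcm⟩ := hP.close hQ hbne.symm fun x hx hx' => by
    have hxY := hsufY x ((hQm x).1 hx')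
    rcases (hPm x).1 hx with hx | hx
    · refine Or.inl ?_
      rcases (hP₁m x).1 hx with hx | hx
      · exact hlk.y₁ x (List.mem_reverse.1 hx) hxY
      · obtain ⟨i, hi, rfl⟩ := mem_image.1 (hpreX x hx)
        obtain ⟨j, hj, e⟩ := mem_image.1 hxY
        rw [mem_range] at hi
        rw [mem_Icc] at hj
        have := h.1 j i hj.2 (by omega) e
        rw [show i = a by omega] at hxY ⊢
        exact hlk.y₁ _ hlk.p₁.head_mem hxY
    · exact Or.inr (hlk.y₂ x hx hxY)
  have hin : ∀ x, x ∈ c ↔ ((x ∈ l₁ ∨ x ∈ (sg f g a).reverse ++ sg f 0 s) ∨ x ∈ l₂) ∨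
      x ∈ sg f b k ++ (sg f t l).reverse := fun x => by
    rw [hcm, hPm, hP₁m, hQm, List.mem_reverse]
  refine ⟨c, u, v, hc, hvu, fun x hx => ?_, ?_⟩
  · rcases (hin x).1 hx with ((hx | hx) | hx) | hx
    · exact hlk.sub x (Or.inl hx)
    · obtain ⟨i, hi, rfl⟩ := mem_image.1 (hpreX x hx)
      exact hfS i (by rw [mem_range] at hi; omega)
    · exact hlk.sub x (Or.inr hx)
    · obtain ⟨i, hi, rfl⟩ := mem_image.1 (hsufY x hx)
      exact hfS i (mem_Icc.1 hi).2
  have hI : ∀ i ∈ insert 0 A ∪ insert l B, f i ∈ c := by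
    intro i hi
    refine (hin _).2 ?_
    simp only [mem_union, mem_insert] at hi
    rcases hi with (rfl | hi) | (rfl | hi)
    · refine Or.inl (Or.inl (Or.inr (List.mem_append.2 (Or.inr ?_))))
      exact mem_sg.2 ⟨0, le_rfl, Nat.zero_le _, rfl⟩
    · refine Or.inl (Or.inl (Or.inr (List.mem_append.2 ?_)))
      by_cases his : i ≤ s
      · exact Or.inr (mem_sg.2 ⟨i, Nat.zero_le _, his, rfl⟩)
      · exact Or.inl (List.mem_reverse.2
          (mem_sg.2 ⟨i, hgmin i hi (by omega), (hA i hi).2.1, rfl⟩))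
    · exact Or.inr (List.mem_append.2 (Or.inr (List.mem_reverse.2
        (mem_sg.2 ⟨i, htb, le_rfl, rfl⟩))))
    · refine Or.inr (List.mem_append.2 ?_)
      by_cases hit : i < t
      · exact Or.inl (mem_sg.2 ⟨i, (hB i hi).1, hkmax i hi hit, rfl⟩)
      · exact Or.inr (List.mem_reverse.2
          (mem_sg.2 ⟨i, by omega, by have := (hB i hi).2.1; omega, rfl⟩))
  have hcard : ((insert 0 A ∪ insert l B).image f).card ≤ c.length := by
    refine le_trans (card_le_card fun x hx => ?_) (List.toFinset_card_le c)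
    obtain ⟨i, hi, rfl⟩ := mem_image.1 hx
    exact List.mem_toFinset.2 (hI i hi)
  have hle : ∀ i ∈ insert 0 A ∪ insert l B, i ≤ l := by
    intro i hi
    simp only [mem_union, mem_insert] at hi
    rcases hi with (rfl | hi) | (rfl | hi)
    · omega
    · have := hA i hi; omega
    · exact le_rfl
    · have := hB i hi; omega
  rw [card_image_of_injOn fun i hi j hj e => h.1 i j (hle i hi) (hle j hj) e] at hcard
  have hint : (insert 0 A ∩ insert l B).card ≤ 1 := by
    refine card_le_one.2 fun i hi j hj => ?_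
    simp only [mem_inter, mem_insert] at hi hj
    have key : ∀ q, (q = 0 ∨ q ∈ A) → (q = l ∨ q ∈ B) → q = a := fun q h1 h2 => by
      have hq1 : q ≤ a := h1.elim (fun e => by omega) fun e => (hA q e).2.1
      have hq2 : b ≤ q := h2.elim (fun e => by omega) fun e => (hB q e).1
      omega
    rw [key i hi.1 hi.2, key j hj.1 hj.2]
  have h0A : (0 : ℕ) ∉ A := fun h0 => by have := hA 0 h0; omega
  have hlB : l ∉ B := fun h0 => by have := hB l h0; omega
  have := card_union_add_card_inter (insert 0 A) (insert l B)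
  rw [card_insert_of_notMem h0A, card_insert_of_notMem hlB] at this
  omega

theorem dirac_cycle (hS : Conn G S) (hn : NoCut G S) (hne : S.Nonempty) {d : ℕ} (hd2 : 2 ≤ d)
    (hd : ∀ x ∈ S, d ≤ degIn G S x) :
    ∃ (f : ℕ → V) (L : ℕ), 3 ≤ L ∧ min S.card (2 * d) ≤ L ∧ (∀ i, f (i + L) = f i) ∧
      (∀ i j, i < L → j < L → f i = f j → i = j) ∧ (∀ i, G.Adj (f i) (f (i + 1))) ∧
      ∀ i, f i ∈ S := by
  classical
  suffices hkey : ∃ c u v, IsP G c u v ∧ G.Adj v u ∧ (∀ x ∈ c, x ∈ S) ∧ 3 ≤ c.length ∧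
      min S.card (2 * d) ≤ c.length by
    obtain ⟨c, u, v, hc, hvu, hcS, h3, hmin⟩ := hkey
    obtain ⟨f, hf⟩ := exists_periodic hc hvu hcS rfl
    exact ⟨f, c.length, h3, hmin, hf⟩
  obtain ⟨f, l, h, hfS, hmax⟩ := exists_longest (G := G) hne
  set A := (range (l + 1)).filter fun i => G.Adj (f 0) (f i)
  set B := (range (l + 1)).filter fun i => G.Adj (f l) (f i)
  have hAd : d ≤ A.card := by
    refine (hd _ (hfS 0 (by omega))).trans (degIn_le_filter (f := f) fun y hy hxy => ?_)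
    obtain ⟨i, -, hi2, e⟩ := end_nbr h hfS hmax hy hxy
    exact ⟨i, by omega, by rw [e]; exact hxy, e⟩
  have hBd : d ≤ B.card := by
    refine (hd _ (hfS l le_rfl)).trans (degIn_le_filter (f := f) fun y hy hxy => ?_)
    obtain ⟨i, -, hi2, e⟩ := end_nbr h.reverse (fun i _ => hfS _ (by omega)) hmax hy
      (by simpa using hxy)
    exact ⟨l - i, by omega, by rw [e]; exact hxy, e⟩
  have hA : ∀ i ∈ A, 1 ≤ i ∧ i ≤ l ∧ G.Adj (f 0) (f i) := fun i hi => by
    obtain ⟨hi1, hi2⟩ := mem_filter.1 hi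
    rw [mem_range] at hi1
    exact ⟨Nat.one_le_iff_ne_zero.2 fun e => G.irrefl (e ▸ hi2), by omega, hi2⟩
  have hB : ∀ i ∈ B, i < l ∧ G.Adj (f l) (f i) := fun i hi => by
    obtain ⟨hi1, hi2⟩ := mem_filter.1 hi
    rw [mem_range] at hi1
    exact ⟨lt_of_le_of_ne (by omega) fun e => G.irrefl (e ▸ hi2), hi2⟩
  by_cases hcr : ∃ i ∈ B, ∃ j ∈ A, i < j
  · -- crossing chords of least gap
    obtain ⟨i, hi, j, hj, hij, hgap⟩ : ∃ i ∈ B, ∃ j ∈ A, i < j ∧
        ∀ i' ∈ B, ∀ j' ∈ A, i' < j' → j - i ≤ j' - i' := by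
      have hex : ∃ q, ∃ i ∈ B, ∃ j ∈ A, i < j ∧ j - i = q := by
        obtain ⟨i, hi, j, hj, hij⟩ := hcr
        exact ⟨_, i, hi, j, hj, hij, rfl⟩
      obtain ⟨i, hi, j, hj, hij, e⟩ := Nat.find_spec hex
      exact ⟨i, hi, j, hj, hij, fun i' hi' j' hj' h' =>
        e ▸ Nat.find_le ⟨i', hi', j', hj', h', rfl⟩⟩
    obtain ⟨hj1, hjl, hj0⟩ := hA j hj
    obtain ⟨hil, hi0⟩ := hB i hi
    have hcyc : IsP G (sg f 0 i ++ (sg f j l).reverse) (f 0) (f j) := by
      refine (h.sg (Nat.zero_le i) (by omega)).append (h.sg hjl le_rfl).reverse hi0.symm ?_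
      intro x hx hx'
      obtain ⟨q, -, hq, rfl⟩ := mem_sg.1 hx
      obtain ⟨r, hr, hrl, e⟩ := mem_sg.1 (List.mem_reverse.1 hx')
      have := h.1 r q hrl (by omega) e
      omega
    have hlen : (sg f 0 i ++ (sg f j l).reverse).length = i + 1 + (l + 1 - j) := by simp
    have hcS : ∀ x ∈ sg f 0 i ++ (sg f j l).reverse, x ∈ S := by
      intro x hx
      rcases List.mem_append.1 hx with hx | hx
      · obtain ⟨q, -, hq, rfl⟩ := mem_sg.1 hx; exact hfS q (by omega)
      · obtain ⟨q, -, hq, rfl⟩ := mem_sg.1 (List.mem_reverse.1 hx); exact hfS q hq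
    have hl2 : 2 ≤ l := by
      by_contra hl
      have : A.card ≤ 1 := card_le_one.2 fun x hx y hy => by
        have := hA x hx; have := hA y hy; omega
      omega
    refine ⟨_, _, _, hcyc, hj0.symm, hcS, ?_⟩
    rw [hlen]
    by_cases hg1 : j = i + 1
    · by_contra hlt
      have hlt' : (sg f 0 i ++ (sg f j l).reverse).length < S.card := by rw [hlen]; omega
      obtain ⟨g, hg, hgS⟩ := cyc_extend hS hcyc hj0.symm hcS hlt'
      have := hmax g _ hg hgS
      omega
    · suffices 2 * d ≤ i + 1 + (l + 1 - j) by omega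
      set B' := (B.erase i).image fun q => q + 1
      have hB'c : d - 1 ≤ B'.card := by
        rw [card_image_of_injective _ (add_left_injective 1), card_erase_of_mem hi]
        omega
      have hdisj : Disjoint A B' := disjoint_left.2 fun q hqA hqB => by
        obtain ⟨r, hr, rfl⟩ := mem_image.1 hqB
        have := hgap r (mem_of_mem_erase hr) (r + 1) hqA (by omega)
        omega
      have hsub : A ∪ B' ⊆ (range (i + 1) ∪ Icc j l).erase 0 := by
        intro q hq
        simp only [mem_erase, mem_union, mem_range, mem_Icc]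
        rcases mem_union.1 hq with hq | hq
        · obtain ⟨h1, h2, -⟩ := hA q hq
          refine ⟨by omega, ?_⟩
          by_contra hc
          have := hgap i hi q hq (by omega)
          omega
        · obtain ⟨r, hr, rfl⟩ := mem_image.1 hq
          obtain ⟨h1, -⟩ := hB r (mem_of_mem_erase hr)
          refine ⟨by omega, ?_⟩
          have hri := ne_of_mem_erase hr
          by_contra hc
          have := hgap r (mem_of_mem_erase hr) j hj (by omega)
          omega
      have h1 := card_le_card hsub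
      rw [card_union_of_disjoint hdisj, card_erase_of_mem (by simp)] at h1
      have h2 := card_union_le (range (i + 1)) (Icc j l)
      rw [card_range, Nat.card_Icc] at h2
      omega
  · simp only [not_exists, not_and, not_lt] at hcr
    have hAne : A.Nonempty := card_pos.1 (by omega)
    have hBne : B.Nonempty := card_pos.1 (by omega)
    set a := A.max' hAne
    set b := B.min' hBne
    have hAa : a ∈ A := max'_mem _ _
    have hBb : b ∈ B := min'_mem _ _
    have hab : a ≤ b := hcr b hBb a hAa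
    have hbl : b < l := (hB b hBb).1
    have hA' : ∀ i ∈ A, 1 ≤ i ∧ i ≤ a ∧ G.Adj (f 0) (f i) := fun i hi =>
      ⟨(hA i hi).1, le_max' _ i hi, (hA i hi).2.2⟩
    have hB' : ∀ i ∈ B, b ≤ i ∧ i < l ∧ G.Adj (f l) (f i) := fun i hi =>
      ⟨min'_le _ i hi, hB i hi⟩
    set X := (range (a + 1)).image f with hXdef
    set Y := (Icc b l).image f with hYdef
    have hXS : X ⊆ S := fun x hx => by
      obtain ⟨i, hi, rfl⟩ := mem_image.1 hx; exact hfS i (by rw [mem_range] at hi; omega)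
    have hYS : Y ⊆ S := fun x hx => by
      obtain ⟨i, hi, rfl⟩ := mem_image.1 hx; exact hfS i (mem_Icc.1 hi).2
    have hfa : f a ∈ X := mem_image.2 ⟨a, by simp, rfl⟩
    have hfbY : f b ∈ Y := mem_image.2 ⟨b, mem_Icc.2 ⟨le_rfl, hbl.le⟩, rfl⟩
    obtain ⟨l₁, l₂, b₁, a₂, b₂, hlk, hfb⟩ : ∃ l₁ l₂ b₁ a₂ b₂,
        Link G S X Y l₁ l₂ (f a) b₁ a₂ b₂ ∧ (f b = b₁ ∨ f b = b₂) := by
      rcases hab.eq_or_lt with e | hlt
      · -- one path avoiding the common vertex
        have hinj : ∀ i, i ≤ l → f i = f a → i = a := fun i hi e' => h.1 i a hi (by omega) e'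
        obtain ⟨R₀, u, hR₀, hu, hRS₀, hRX₀⟩ :=
          (hn _ (hfS a (by omega))).reach (X := X.erase (f a)) (erase_subset_erase _ hXS)
            ⟨f 0, mem_erase.2 ⟨fun e' => by
              have := hinj 0 (by omega) e'; have := hA' a hAa; omega,
              mem_image.2 ⟨0, by simp, rfl⟩⟩⟩
            (y := f l) (mem_erase.2 ⟨fun e' => by have := hinj l le_rfl e'; omega, hfS l le_rfl⟩)
        obtain ⟨R, v, hR, hv, sR, hRY, -⟩ := hR₀.trim
          (show f l ∈ Y from mem_image.2 ⟨l, mem_Icc.2 ⟨hbl.le, le_rfl⟩, rfl⟩)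
        have hRS : ∀ x ∈ R, x ∈ S ∧ x ≠ f a := fun x hx =>
          ⟨mem_of_mem_erase (hRS₀ x (sR x hx)), ne_of_mem_erase (hRS₀ x (sR x hx))⟩
        refine ⟨[f a], R, f a, u, v, ⟨isP_singleton _, hR, hfa, mem_of_mem_erase hu,
          e ▸ hfbY, hv, ?_, ?_, ?_, ?_, ?_, hRY⟩, Or.inl (by rw [e])⟩
        · intro x hx
          rcases hx with hx | hx
          · rw [List.mem_singleton] at hx; exact hx ▸ hXS hfa
          · exact (hRS x hx).1
        · intro x hx hx'
          rw [List.mem_singleton] at hx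
          exact (hRS x hx').2 hx
        · intro x hx _; simpa using hx
        · intro x hx _; simpa using hx
        · intro x hx hxX
          exact hRX₀ x (sR x hx) (mem_erase.2 ⟨(hRS x hx).2, hxX⟩)
      · have hdXY : Disjoint X Y := disjoint_left.2 fun x hx hx' => by
          obtain ⟨i, hi, rfl⟩ := mem_image.1 hx
          obtain ⟨j, hj, e'⟩ := mem_image.1 hx'
          rw [mem_range] at hi; rw [mem_Icc] at hj
          have := h.1 j i hj.2 (by omega) e'
          omega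
        have hX2 : 2 ≤ X.card := by
          rw [hXdef, card_image_of_injOn fun i hi j hj e' => h.1 i j (by simp at hi; omega)
            (by simp at hj; omega) e', card_range]
          have := (hA' a hAa).1
          omega
        have hY2 : 2 ≤ Y.card := by
          rw [hYdef, card_image_of_injOn fun i hi j hj e' =>
            h.1 i j (by simp at hi; omega) (by simp at hj; omega) e', Nat.card_Icc]
          omega
        obtain ⟨p₁, p₂, c₁, d₁, c₂, d₂, hl0⟩ := linkage hS hn hXS hYS hdXY hX2 hY2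
        have hseg := h.sg hab hbl.le
        have hsegS : ∀ x ∈ sg f a b, x ∈ S := fun x hx => by
          obtain ⟨i, -, hi, rfl⟩ := mem_sg.1 hx; exact hfS i (by omega)
        have hsegX : ∀ x ∈ sg f a b, x ∈ X → x = f a := fun x hx hx' => by
          obtain ⟨i, hi1, hi2, rfl⟩ := mem_sg.1 hx
          obtain ⟨j, hj, e'⟩ := mem_image.1 hx'
          rw [mem_range] at hj
          have := h.1 j i (by omega) (by omega) e'
          rw [show i = a by omega]
        have hsegY : ∀ x ∈ sg f a b, x ∈ Y → x = f b := fun x hx hx' => by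
          obtain ⟨i, hi1, hi2, rfl⟩ := mem_sg.1 hx
          obtain ⟨j, hj, e'⟩ := mem_image.1 hx'
          rw [mem_Icc] at hj
          have := h.1 j i hj.2 (by omega) e'
          rw [show i = b by omega]
        obtain ⟨m₁, m₂, e₁, g₂, e₂, hl1, -⟩ := hl0.reroute hseg hfa hfbY hsegS hsegX hsegY
        obtain ⟨n₁, n₂, e₁', g₂', e₂', hl2, hpres⟩ := hl1.symm.reroute hseg.reverse hfbY hfa
          (fun x hx => hsegS x (List.mem_reverse.1 hx))
          (fun x hx => hsegY x (List.mem_reverse.1 hx))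
          (fun x hx => hsegX x (List.mem_reverse.1 hx))
        rcases hpres (Or.inl rfl) with e' | e'
        · subst e'
          exact ⟨_, _, _, _, _, hl2.symm, Or.inl rfl⟩
        · subst e'
          exact ⟨_, _, _, _, _, hl2.symm.swap, Or.inr rfl⟩
    obtain ⟨c, u, v, hc, hvu, hcS, hlen⟩ :=
      cycle_of_link h hfS hab hbl.le hA' hAa hAd hB' hBb hBd hlk hfb
    exact ⟨c, u, v, hc, hvu, hcS, by omega, by omega⟩

end Vale.Agent.P048.Cycle
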