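import Vale.Agent.P048.Cycle.Ctx
import Vale.Agent.P048.Cycle.LongPath
import Vale.Agent.P048.Cycle.Colour
import Vale.Agent.P048.Cycle.Dirac

/-!
A dense non-clique inside one layer yields a cycle on `k+1` vertices.
-/

namespace Vale.Agent.P048.Cycle

open Finset

variable {V : Type*} [DecidableEq V] {G : SimpleGraph V}

/-- A connected set of large minimum degree inside a neighbourhood gives a `(k+1)`-cycle. -/
theorem common_nbr {k : ℕ} {H : Finset V} (hk : 2 ≤ k) (hS : Conn G H)
    (hd : ∀ x ∈ H, k ≤ 2 * degIn G H x + 1) (hn : k ≤ H.card) {w : V}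
    (hw : ∀ x ∈ H, G.Adj w x) : HasCyc G (k + 1) := by
  have hne : H.Nonempty := card_pos.mp (by omega)
  obtain ⟨f, l, hf, hfH, hl⟩ := long_path hS hne (d := k / 2) fun x hx => by
    have := hd x hx; omega
  have hkl : k - 1 ≤ l := by omega
  have hp := hf.sg (Nat.zero_le (k - 1)) hkl
  have hwn : w ∉ sg f 0 (k - 1) := by
    intro hm
    obtain ⟨i, -, hi, e⟩ := mem_sg.mp hm
    exact G.irrefl (hw w (e ▸ hfH i (by omega)))
  refine ⟨_, _, _, hp.concat (hw _ (hfH _ hkl)).symm hwn, hw _ (hfH 0 (by omega)), ?_⟩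
  simp
  omega

variable [Fintype V]

open Classical in
/-- A chosen neighbour one level closer to `Q`. -/
noncomputable def par (G : SimpleGraph V) (Q : Finset V) (v : V) : V :=
  if h : ∃ u, lev G Q u + 1 = lev G Q v ∧ G.Adj u v then h.choose else v

variable {k r : ℕ}

theorem Ctx.par_spec (h : Ctx G k r) {Q : Finset V} (hQ : Q.Nonempty) {v : V}
    (hv : 1 ≤ lev G Q v) :
    lev G Q (par G Q v) + 1 = lev G Q v ∧ G.Adj (par G Q v) v := by
  obtain ⟨u, h1, h2⟩ := h.lev_pred hQ (v := v) (i := lev G Q v - 1) (by omega)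
  have he : ∃ u, lev G Q u + 1 = lev G Q v ∧ G.Adj u v := ⟨u, by omega, h2⟩
  unfold par
  rw [dif_pos he]
  exact he.choose_spec

theorem Ctx.anc_lev (h : Ctx G k r) {Q : Finset V} (hQ : Q.Nonempty) {v : V} :
    ∀ d, d ≤ lev G Q v → lev G Q ((par G Q)^[d] v) = lev G Q v - d := by
  intro d
  induction d with
  | zero => simp
  | succ d ih =>
    intro hd
    have h1 := ih (by omega)
    have h2 := (h.par_spec hQ (v := (par G Q)^[d] v) (by omega)).1
    rw [Function.iterate_succ_apply']
    omega

theorem Ctx.anc_adj (h : Ctx G k r) {Q : Finset V} (hQ : Q.Nonempty) {v : V} {d : ℕ}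
    (hd : d < lev G Q v) : G.Adj ((par G Q)^[d + 1] v) ((par G Q)^[d] v) := by
  have h1 := h.anc_lev hQ (v := v) d (by omega)
  rw [Function.iterate_succ_apply']
  exact (h.par_spec hQ (by omega)).2

theorem Ctx.anc_path (h : Ctx G k r) {Q : Finset V} (hQ : Q.Nonempty) {v : V} {c : ℕ}
    (hc1 : 1 ≤ c) (hc : c ≤ lev G Q v) :
    IsP G (sg (fun d => (par G Q)^[d] v) 1 c) (par G Q v) ((par G Q)^[c] v) := by
  refine isP_sg (f := fun d => (par G Q)^[d] v) hc1 (fun a b _ ha _ hb e => ?_) fun a _ ha => ?_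
  · have h1 := h.anc_lev hQ (v := v) a (by omega)
    have h2 := h.anc_lev hQ (v := v) b (by omega)
    rw [e] at h1
    omega
  · exact (h.anc_adj hQ (by omega)).symm

theorem anc_ne {Q : Finset V} {u v : V} {c d : ℕ} (hdc : d ≤ c)
    (hne : (par G Q)^[c] u ≠ (par G Q)^[c] v) : (par G Q)^[d] u ≠ (par G Q)^[d] v := by
  intro e
  apply hne
  rw [show c = (c - d) + d by omega, Function.iterate_add_apply, Function.iterate_add_apply, e]

/-- Close a coloured path of a layer through two ancestor paths. -/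
theorem Ctx.close_anc (h : Ctx G k r) {Q : Finset V} (hQ : Q.Nonempty) {i : ℕ} {l : List V}
    {u v : V} (hl : IsP G l u v) (hlay : ∀ x ∈ l, x ∈ layer G Q i) {a b : ℕ} (ha1 : 1 ≤ a)
    (hb1 : 1 ≤ b) (hai : a ≤ i) (hbi : b ≤ i)
    (hlink : G.Adj ((par G Q)^[a] v) ((par G Q)^[b] u))
    (hne : (par G Q)^[b] u ≠ (par G Q)^[b] v) : HasCyc G (l.length + a + b) := by
  have hlev : ∀ x ∈ l, lev G Q x = i := fun x hx => by
    have := hlay x hx
    simpa [layer] using this
  have hu := hlev u hl.head_mem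
  have hv := hlev v hl.last_mem
  have pv := h.anc_path hQ (v := v) ha1 (by omega)
  have pu := (h.anc_path hQ (v := u) hb1 (by omega)).reverse
  have hadv : G.Adj v (par G Q v) := by
    have := h.anc_adj hQ (v := v) (d := 0) (by omega)
    simpa using this.symm
  have hadu : G.Adj (par G Q u) u := by
    have := h.anc_adj hQ (v := u) (d := 0) (by omega)
    simpa using this
  have low : ∀ (z x : V), lev G Q z = i → ∀ c, c ≤ i →
      x ∈ sg (fun d => (par G Q)^[d] z) 1 c → lev G Q x < i := by
    intro z x hz c hc hx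
    obtain ⟨d, hd1, hd2, rfl⟩ := mem_sg.mp hx
    rw [h.anc_lev hQ d (by omega)]
    omega
  have p1 := hl.append pv hadv fun x hx hx' => by
    have := low v x hv a hai hx'
    have := hlev x hx
    omega
  have p2 := p1.append pu hlink fun x hx hx' => by
    rw [List.mem_reverse] at hx'
    rcases List.mem_append.mp hx with hx | hx
    · have := low u x hu b hbi hx'
      have := hlev x hx
      omega
    · obtain ⟨d, hd1, hd2, e1⟩ := mem_sg.mp hx
      obtain ⟨d', hd1', hd2', e2⟩ := mem_sg.mp hx'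
      have l1 := h.anc_lev hQ (v := v) d (by omega)
      have l2 := h.anc_lev hQ (v := u) d' (by omega)
      rw [e1] at l1
      rw [e2] at l2
      have hdd : d = d' := by omega
      subst hdd
      exact anc_ne hd2' hne (e2.trans e1.symm)
  exact ⟨_, u, par G Q u, p2, hadu, by simp; omega⟩

theorem Ctx.core_layer (h : Ctx G k r) {Q : Finset V}
    (hQc : ∀ x ∈ Q, ∀ y ∈ Q, x ≠ y → G.Adj x y) (hQ : Q.Nonempty) {i : ℕ} (hi : 2 ≤ i)
    {H : Finset V} (hH : H ⊆ layer G Q i) (hm : MinDense G 2 k 1 H) (hal : 2 ≤ al G H) :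
    False := by
  classical
  have hk := h.hk
  have hr := h.hr
  have hlev : ∀ x ∈ H, lev G Q x = i := fun x hx => by simpa [layer] using hH hx
  obtain ⟨x₀, hx₀⟩ := hm.1.1
  have hir : i ≤ r := hlev x₀ hx₀ ▸ h.lev_le hQ x₀
  have hcard : k + 1 ≤ H.card := by
    have := hm.1.2
    have := Nat.mul_le_mul_left k hal
    omega
  have hdeg : ∀ x ∈ H, k + 1 ≤ 2 * (degIn G H x + 1) := fun x hx => by
    rcases hm.deg le_rfl hx with h1 | ⟨-, h1⟩ <;> exact h1
  have hconn := hm.conn le_rfl
  have halH : al G H + 1 ≤ r := by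
    obtain ⟨J, j1, j2, j3⟩ := exists_al G H
    obtain ⟨q, hq⟩ := hQ
    have hqJ : ∀ x ∈ J, x ≠ q ∧ ¬G.Adj q x := by
      intro x hx
      have hql := (h.lev_zero ⟨q, hq⟩ q).mpr hq
      have hxl := hlev x (j1 hx)
      refine ⟨fun e => by subst e; omega, fun hadj => ?_⟩
      have := h.lev_adj ⟨q, hq⟩ hadj
      omega
    have := le_al (G := G) (subset_univ (insert q J)) (by
      intro a ha b hb
      rw [mem_insert] at ha hb
      rcases ha with rfl | ha <;> rcases hb with rfl | hb
      · exact G.irrefl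
      · exact (hqJ b hb).2
      · exact fun h' => (hqJ a ha).2 h'.symm
      · exact j2 a ha b hb)
    rw [card_insert_of_notMem (fun hh => (hqJ q hh).1 rfl)] at this
    have := h.hal
    omega
  -- a coloured path for every closure length
  have colour : ∀ p, 1 ≤ p → p + 2 ≤ k → ∀ col : V → Bool, (∃ x ∈ H, ∃ y ∈ H, col x ≠ col y) →
      ∃ l u v, IsP G l u v ∧ l.length = p + 1 ∧ (∀ x ∈ l, x ∈ H) ∧ col u ≠ col v := by
    intro p hp1 hp2 col hcol
    obtain ⟨f, L, hL3, hL, hper, hinj, hadj, hmem⟩ := dirac_cycle hconn (hm.noCut (by omega))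
      hm.1.1 (d := k / 2) (by omega) (fun x hx => by have := hdeg x hx; omega)
    exact colour_path hconn hper hinj hadj hmem (by omega) hp1 (by omega) col hcol
  by_cases hsame : ∀ x ∈ H, ∀ y ∈ H, (par G Q)^[i] x = (par G Q)^[i] y
  · -- all ancestor paths end at the same vertex
    have hex : ∃ j, ∀ x ∈ H, ∀ y ∈ H, (par G Q)^[j] x = (par G Q)^[j] y := ⟨i, hsame⟩
    have hj := Nat.find_spec hex
    have hji : Nat.find hex ≤ i := Nat.find_min' hex hsame
    have hj1 : Nat.find hex ≠ 0 := by
      intro e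
      rw [e] at hj
      simp only [Function.iterate_zero, id] at hj
      obtain ⟨a, ha, b, hb, hab⟩ := one_lt_card.mp (show 1 < H.card by omega)
      exact hab (hj a ha b hb)
    by_cases hjone : Nat.find hex = 1
    · rw [hjone] at hj
      refine h.hC (common_nbr (by omega) hconn (fun x hx => by have := hdeg x hx; omega) (by omega)
        (w := par G Q x₀) fun x hx => ?_)
      have := hj x₀ hx₀ x hx
      simp only [Function.iterate_one] at this
      rw [this]
      exact (h.par_spec hQ (by rw [hlev x hx]; omega)).2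
    set j := Nat.find hex with hjdef
    have hnot : ¬∀ x ∈ H, ∀ y ∈ H, (par G Q)^[j - 1] x = (par G Q)^[j - 1] y :=
      Nat.find_min hex (by omega)
    let col : V → Bool := fun x => decide ((par G Q)^[j - 1] x = (par G Q)^[j - 1] x₀)
    have hcol : ∃ x ∈ H, ∃ y ∈ H, col x ≠ col y := by
      by_contra hc
      simp only [not_exists, not_and, not_not] at hc
      refine hnot fun x hx y hy => ?_
      have h1 := hc x hx x₀ hx₀
      have h2 := hc y hy x₀ hx₀
      simp [col] at h1 h2
      rw [h1, h2]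
    obtain ⟨l, u, v, hl, hlen, hlH, huv⟩ := colour (k + 1 - 2 * j) (by omega) (by omega) col hcol
    have hne : (par G Q)^[j - 1] u ≠ (par G Q)^[j - 1] v := fun e => huv (by simp [col, e])
    have hlink : G.Adj ((par G Q)^[j] v) ((par G Q)^[j - 1] u) := by
      rw [hj v (hlH v hl.last_mem) u (hlH u hl.head_mem)]
      have := h.anc_adj hQ (v := u) (d := j - 1) (by rw [hlev u (hlH u hl.head_mem)]; omega)
      rwa [Nat.sub_add_cancel (by omega)] at this
    have := h.close_anc hQ hl (fun x hx => hH (hlH x hx)) (a := j) (b := j - 1) (by omega)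
      (by omega) hji (by omega) hlink hne
    rw [hlen] at this
    exact h.hC (by convert this using 1; omega)
  · let col : V → Bool := fun x => decide ((par G Q)^[i] x = (par G Q)^[i] x₀)
    have hcol : ∃ x ∈ H, ∃ y ∈ H, col x ≠ col y := by
      by_contra hc
      simp only [not_exists, not_and, not_not] at hc
      refine hsame fun x hx y hy => ?_
      have h1 := hc x hx x₀ hx₀
      have h2 := hc y hy x₀ hx₀
      simp [col] at h1 h2
      rw [h1, h2]
    obtain ⟨l, u, v, hl, hlen, hlH, huv⟩ := colour (k - 2 * i) (by omega) (by omega) col hcol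
    have hne : (par G Q)^[i] u ≠ (par G Q)^[i] v := fun e => huv (by simp [col, e])
    have hroot : ∀ x ∈ H, (par G Q)^[i] x ∈ Q := fun x hx => by
      rw [← h.lev_zero hQ, h.anc_lev hQ i (by rw [hlev x hx]), hlev x hx, Nat.sub_self]
    have := h.close_anc hQ hl (fun x hx => hH (hlH x hx)) (a := i) (b := i) (by omega)
      (by omega) le_rfl le_rfl
      (hQc _ (hroot v (hlH v hl.last_mem)) _ (hroot u (hlH u hl.head_mem)) hne.symm) hne
    rw [hlen] at this
    exact h.hC (by convert this using 1; omega)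

end Vale.Agent.P048.Cycle
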