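import Vale.Agent.P048.Cycle.Basic

/-!
Inclusion-minimal dense sets: connectedness, minimum degree, no cut vertex.
-/

namespace Vale.Agent.P048.Cycle

open Finset

variable {V : Type*} [DecidableEq V] {G : SimpleGraph V}

/-- `H` is dense: nonempty with `K * al H + e ≤ c * |H|`. -/
def Dense (G : SimpleGraph V) (c K e : ℕ) (H : Finset V) : Prop :=
  H.Nonempty ∧ K * al G H + e ≤ c * H.card

/-- A dense set none of whose proper subsets is dense. -/
def MinDense (G : SimpleGraph V) (c K e : ℕ) (H : Finset V) : Prop :=
  Dense G c K e H ∧ ∀ U, U ⊂ H → ¬Dense G c K e U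

theorem exists_minDense {c K e : ℕ} {S : Finset V} (h : Dense G c K e S) :
    ∃ H, H ⊆ S ∧ MinDense G c K e H := by
  induction S using Finset.strongInduction with
  | _ S ih =>
    by_cases hm : ∀ U, U ⊂ S → ¬Dense G c K e U
    · exact ⟨S, Subset.refl _, h, hm⟩
    · simp only [not_forall, not_not] at hm
      obtain ⟨U, hU, hd⟩ := hm
      obtain ⟨H, h1, h2⟩ := ih U hU hd
      exact ⟨H, h1.trans hU.subset, h2⟩

theorem MinDense.small {c K e : ℕ} {H U : Finset V} (h : MinDense G c K e H) (hU : U ⊂ H)
    (hne : U.Nonempty) : c * U.card < K * al G U + e := by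
  have := h.2 U hU
  simp only [Dense, hne, true_and, not_le] at this
  exact this

theorem MinDense.conn {c K e : ℕ} {H : Finset V} (h : MinDense G c K e H) (he : e ≤ 1) :
    Conn G H := by
  by_contra hc
  obtain ⟨A, B, hA, hB, hd, rfl, hn⟩ := not_conn hc
  have hAs : A ⊂ A ∪ B := by
    refine ⟨subset_union_left, fun hh => ?_⟩
    obtain ⟨b, hb⟩ := hB
    exact disjoint_left.mp hd (hh (mem_union_right _ hb)) hb
  have hBs : B ⊂ A ∪ B := by
    refine ⟨subset_union_right, fun hh => ?_⟩
    obtain ⟨a, ha⟩ := hA
    exact disjoint_left.mp hd ha (hh (mem_union_left _ ha))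
  have h1 := h.small hAs hA
  have h2 := h.small hBs hB
  have h3 := Nat.mul_le_mul_left K (al_add_le hd hn)
  have h4 := h.1.2
  rw [card_union_of_disjoint hd] at h4
  rw [Nat.mul_add] at h3 h4
  omega

open Classical in
theorem degIn_add_compl (H : Finset V) (x : V) (hx : x ∈ H) :
    degIn G H x + 1 + (H.filter fun y => y ≠ x ∧ ¬G.Adj x y).card = H.card := by
  have h1 := card_filter_add_card_filter_not (s := H) fun y => G.Adj x y
  have e : (H.filter fun y => ¬G.Adj x y) = insert x (H.filter fun y => y ≠ x ∧ ¬G.Adj x y) := by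
    ext y
    simp only [mem_filter, mem_insert]
    constructor
    · rintro ⟨h1, h2⟩
      by_cases e : y = x
      · exact Or.inl e
      · exact Or.inr ⟨h1, e, h2⟩
    · rintro (rfl | ⟨h1, -, h2⟩)
      · exact ⟨hx, G.irrefl⟩
      · exact ⟨h1, h2⟩
  rw [e, card_insert_of_notMem (by simp)] at h1
  unfold degIn
  omega

theorem MinDense.deg {c K e : ℕ} {H : Finset V} (h : MinDense G c K e H) (he : e ≤ 1) {x : V}
    (hx : x ∈ H) : K + 1 ≤ c * (degIn G H x + 1) ∨
      (degIn G H x + 1 = H.card ∧ K + e ≤ c * (degIn G H x + 1)) := by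
  classical
  have h0 := degIn_add_compl (G := G) H x hx
  set W := H.filter fun y => y ≠ x ∧ ¬G.Adj x y with hW
  rcases W.eq_empty_or_nonempty with hWe | hWne
  · right
    rw [hWe, card_empty, Nat.add_zero] at h0
    refine ⟨h0, ?_⟩
    have := Nat.mul_le_mul_left K (al_pos (G := G) h.1.1)
    have h4 := h.1.2
    rw [h0]
    omega
  · left
    have hs : W ⊂ H := ⟨filter_subset _ _, fun hh => by simpa [hW] using hh hx⟩
    have h1 := h.small hs hWne
    have h2 : al G W + 1 ≤ al G H := by
      obtain ⟨J, j1, j2, j3⟩ := exists_al G W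
      have hxJ : x ∉ J := fun hh => by simpa [hW] using j1 hh
      have := le_al (G := G) (S := H) (J := insert x J)
        (insert_subset hx (j1.trans (filter_subset _ _))) (by
          intro a ha b hb
          rw [mem_insert] at ha hb
          rcases ha with rfl | ha <;> rcases hb with rfl | hb
          · exact G.irrefl
          · exact (mem_filter.mp (j1 hb)).2.2
          · exact fun h => (mem_filter.mp (j1 ha)).2.2 h.symm
          · exact j2 a ha b hb)
      rw [card_insert_of_notMem hxJ] at this
      omega
    have h3 := Nat.mul_le_mul_left K h2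
    have h4 := h.1.2
    rw [← h0, Nat.mul_add] at h4
    rw [Nat.mul_add] at h3
    omega

/-- One of the two sides of a separation absorbs the separating vertex. -/
theorem absorb {A B : Finset V} {x : V} (hd : Disjoint A B) (hn : NoE G A B) (hxA : x ∉ A)
    (hxB : x ∉ B) (h : al G (insert x (A ∪ B)) ≤ al G A + al G B) :
    al G (insert x A) ≤ al G A ∨ al G (insert x B) ≤ al G B := by
  by_contra hc
  simp only [not_or, not_le] at hc
  obtain ⟨J, j1, j2, j3⟩ := exists_al G (insert x A)
  obtain ⟨K, k1, k2, k3⟩ := exists_al G (insert x B)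
  have hxJ : x ∈ J := by
    by_contra hh
    have hsub : J ⊆ A := fun y hy => (mem_insert.mp (j1 hy)).resolve_left fun e => hh (e ▸ hy)
    have := le_al (G := G) hsub j2
    omega
  have hxK : x ∈ K := by
    by_contra hh
    have hsub : K ⊆ B := fun y hy => (mem_insert.mp (k1 hy)).resolve_left fun e => hh (e ▸ hy)
    have := le_al (G := G) hsub k2
    omega
  have hI : J ∩ K = {x} := by
    ext y
    simp only [mem_inter, mem_singleton]
    constructor
    · rintro ⟨hy1, hy2⟩
      rcases mem_insert.mp (j1 hy1) with e | e1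
      · exact e
      rcases mem_insert.mp (k1 hy2) with e | e2
      · exact e
      exact absurd e2 (disjoint_left.mp hd e1)
    · rintro rfl; exact ⟨hxJ, hxK⟩
  have hU := le_al (G := G) (S := insert x (A ∪ B)) (J := J ∪ K) (by
      intro y hy
      simp only [mem_union, mem_insert] at hy ⊢
      rcases hy with hy | hy
      · have := j1 hy; simp at this; tauto
      · have := k1 hy; simp at this; tauto) (by
      intro a ha b hb
      rw [mem_union] at ha hb
      rcases ha with ha | ha <;> rcases hb with hb | hb
      · exact j2 a ha b hb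
      · rcases mem_insert.mp (j1 ha) with rfl | ha'
        · exact k2 _ hxK b hb
        rcases mem_insert.mp (k1 hb) with rfl | hb'
        · exact j2 a ha _ hxJ
        exact hn a ha' b hb'
      · rcases mem_insert.mp (j1 hb) with rfl | hb'
        · exact k2 a ha _ hxK
        rcases mem_insert.mp (k1 ha) with rfl | ha'
        · exact j2 _ hxJ b hb
        exact fun h => hn b hb' a ha' h.symm
      · exact k2 a ha b hb)
  have hc2 := card_union_add_card_inter J K
  rw [hI, card_singleton] at hc2
  omega

theorem MinDense.noCut {K : ℕ} {H : Finset V} (hK : 3 ≤ K) (h : MinDense G 2 K 1 H) :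
    NoCut G H := by
  intro x hx
  by_contra hc
  obtain ⟨A, B, hA, hB, hd, hAB, hn⟩ := not_conn hc
  have hxA : x ∉ A := fun hh => by
    have : x ∈ H.erase x := hAB ▸ mem_union_left B hh
    simp at this
  have hxB : x ∉ B := fun hh => by
    have : x ∈ H.erase x := hAB ▸ mem_union_right A hh
    simp at this
  have hH : insert x (A ∪ B) = H := by rw [hAB, insert_erase hx]
  have hcard : H.card = A.card + B.card + 1 := by
    rw [← card_union_of_disjoint hd, hAB, card_erase_of_mem hx]
    have := card_pos.mpr ⟨x, hx⟩
    omega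
  have hEs : H.erase x ⊂ H := erase_ssubset hx
  have hEne : (H.erase x).Nonempty := hAB ▸ hA.mono subset_union_left
  have e1 := h.small hEs hEne
  have hHd := h.1.2
  have hadd := al_add_le hd hn
  rw [hAB] at hadd
  have hmon : al G (H.erase x) ≤ al G H := al_mono (erase_subset _ _)
  rw [card_erase_of_mem hx] at e1
  have hle := Nat.mul_le_mul_left K hmon
  have eA := h.small (ssubset_of_subset_of_ne (fun y hy => hH ▸ mem_insert_of_mem (mem_union_left _ hy))
    (fun e => hxA (e ▸ hx))) hA
  have eB := h.small (ssubset_of_subset_of_ne (fun y hy => hH ▸ mem_insert_of_mem (mem_union_right _ hy))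
    (fun e => hxB (e ▸ hx))) hB
  by_cases hlt : al G A + al G B < al G H
  · have := Nat.mul_le_mul_left K (show al G A + al G B + 1 ≤ al G H by omega)
    rw [Nat.mul_add, Nat.mul_add] at this
    omega
  have hsum := Nat.mul_le_mul_left K (hadd.trans hmon)
  rw [Nat.mul_add] at hsum
  rcases absorb hd hn hxA hxB (by rw [hH]; omega) with ha | hb
  · have hs : insert x A ⊂ H := by
      refine ssubset_of_subset_of_ne (fun y hy => hH ▸ ?_) fun e => ?_
      · simp at hy ⊢; tauto
      · obtain ⟨b, hb⟩ := hB
        have : b ∈ insert x A := e ▸ (hH ▸ mem_insert_of_mem (mem_union_right _ hb) : b ∈ H)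
        rcases mem_insert.mp this with rfl | h'
        · exact hxB hb
        · exact disjoint_left.mp hd h' hb
    have e2 := h.small hs ⟨x, mem_insert_self _ _⟩
    rw [card_insert_of_notMem hxA] at e2
    have := Nat.mul_le_mul_left K ha
    omega
  · rename' hb => habs
    have hs : insert x B ⊂ H := by
      refine ssubset_of_subset_of_ne (fun y hy => hH ▸ ?_) fun e => ?_
      · simp at hy ⊢; tauto
      · obtain ⟨b, hb⟩ := hA
        have : b ∈ insert x B := e ▸ (hH ▸ mem_insert_of_mem (mem_union_left _ hb) : b ∈ H)
        rcases mem_insert.mp this with rfl | h'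
        · exact hxA hb
        · exact disjoint_left.mp hd hb h'
    have e2 := h.small hs ⟨x, mem_insert_self _ _⟩
    rw [card_insert_of_notMem hxB] at e2
    have := Nat.mul_le_mul_left K habs
    omega

end Vale.Agent.P048.Cycle
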