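import Vale.Agent.P048.Cycle.Basic

/-!
Two disjoint paths between two sets in a graph without cut vertices (fan lemma).
-/

namespace Vale.Agent.P048.Cycle

open Finset

variable {V : Type*}

theorem exists_split_last {P : V → Prop} {l : List V} (h : ∃ x ∈ l, P x) :
    ∃ A z B, l = A ++ z :: B ∧ P z ∧ ∀ b ∈ B, ¬P b := by
  classical
  induction l with
  | nil => simp at h
  | cons a l ih =>
    by_cases h' : ∃ x ∈ l, P x
    · obtain ⟨A, z, B, rfl, hz, hB⟩ := ih h'
      exact ⟨a :: A, z, B, rfl, hz, hB⟩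
    · obtain ⟨x, hx, hP⟩ := h
      rcases List.mem_cons.mp hx with rfl | hx
      · exact ⟨[], x, l, rfl, hP, fun b hb hb' => h' ⟨b, hb, hb'⟩⟩
      · exact absurd ⟨x, hx, hP⟩ h'

theorem exists_split_first {P : V → Prop} {l : List V} (h : ∃ x ∈ l, P x) :
    ∃ A z B, l = A ++ z :: B ∧ P z ∧ ∀ a ∈ A, ¬P a := by
  obtain ⟨A, z, B, e, hz, hB⟩ := exists_split_last (l := l.reverse)
    (P := P) (by obtain ⟨x, hx, hP⟩ := h; exact ⟨x, by simpa using hx, hP⟩)
  refine ⟨B.reverse, z, A.reverse, ?_, hz, fun a ha => hB a (by simpa using ha)⟩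
  have := congrArg List.reverse e
  simpa using this

variable {G : SimpleGraph V}

/-- Follow `l` up to `z`, then the part of `R` after `z`. -/
theorem IsP.splice {A B A' B' : List V} {u v u' v' z : V} (h : IsP G (A ++ z :: B) u v)
    (h' : IsP G (A' ++ z :: B') u' v') (hd : ∀ x ∈ B', x ∉ A ++ [z]) :
    IsP G (A ++ z :: B') u v' := by
  have h1 := h.left
  have h2 := h'.right
  obtain ⟨hc, hn, hh, hl⟩ := h2
  obtain ⟨hc1, hn1, hh1, hl1⟩ := h1
  have e : A ++ z :: B' = (A ++ [z]) ++ B' := by simp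
  rw [e]
  refine ⟨hc1.append (List.IsChain.of_cons hc) ?_, ?_, ?_, ?_⟩
  · intro x hx y hy
    rw [hl1] at hx
    simp only [Option.mem_def, Option.some.injEq] at hx
    subst hx
    exact List.IsChain.rel_head? hc hy
  · exact List.nodup_append'.2 ⟨hn1, (List.nodup_cons.mp hn).2, fun x hx hx' => hd x hx' hx⟩
  · rw [List.head?_append_of_ne_nil _ (by simp)]; exact hh1
  · rcases List.eq_nil_or_concat B' with rfl | ⟨B'', b, rfl⟩
    · simpa using hl
    · rw [List.getLast?_append_of_ne_nil _ (by simp)]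
      have e2 : z :: B''.concat b = [z] ++ B''.concat b := rfl
      rw [e2, List.getLast?_append_of_ne_nil _ (by simp)] at hl
      exact hl

/-- A fan of two paths from `X` to `y`, disjoint apart from `y`. -/
def Fan (G : SimpleGraph V) (S X : Finset V) (y : V) : Prop :=
  ∃ l₁ l₂ a₁ a₂, IsP G l₁ a₁ y ∧ IsP G l₂ a₂ y ∧ a₁ ∈ X ∧ a₂ ∈ X ∧ a₁ ≠ a₂ ∧
    (∀ x, x ∈ l₁ ∨ x ∈ l₂ → x ∈ S) ∧ (∀ x ∈ l₁, x ∈ l₂ → x = y) ∧
    (∀ x ∈ l₁, x ∈ X → x = a₁) ∧ (∀ x ∈ l₂, x ∈ X → x = a₂)

variable [DecidableEq V]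

/-- Extend a fan to a neighbour, given a path which avoids the old centre. -/
theorem fan_step {S X : Finset V} {l₁ l₂ R : List V} {a₁ a₂ u w b : V}
    (h₁ : IsP G l₁ a₁ w) (h₂ : IsP G l₂ a₂ w) (ha₁ : a₁ ∈ X) (ha₂ : a₂ ∈ X) (hne : a₁ ≠ a₂)
    (hS : ∀ x, x ∈ l₁ ∨ x ∈ l₂ → x ∈ S) (hd : ∀ x ∈ l₁, x ∈ l₂ → x = w)
    (hX₁ : ∀ x ∈ l₁, x ∈ X → x = a₁) (hX₂ : ∀ x ∈ l₂, x ∈ X → x = a₂)
    (hR : IsP G R u b) (hu : u ∈ X) (hRX : ∀ x ∈ R, x ∈ X → x = u)
    (hRS : ∀ x ∈ R, x ∈ S) (hRw : w ∉ R) (hbX : b ∉ X) (hab : G.Adj w b) :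
    Fan G S X b := by
  classical
  have hbR := hR.last_mem
  by_cases hz : ∃ x ∈ R, x ∈ l₁ ∨ x ∈ l₂
  · obtain ⟨C, z, D, eR, hzl, hD⟩ := exists_split_last hz
    have hzR : z ∈ R := by rw [eR]; simp
    have hzw : z ≠ w := fun e => hRw (e ▸ hzR)
    wlog hz1 : z ∈ l₁ generalizing l₁ l₂ a₁ a₂
    · exact this h₂ h₁ ha₂ ha₁ hne.symm (fun x hx => hS x hx.symm)
        (fun x hx hx' => hd x hx' hx) hX₂ hX₁
        (by obtain ⟨x, hx, hx'⟩ := hz; exact ⟨x, hx, hx'.symm⟩)
        hzl.symm (fun x hx hx' => hD x hx hx'.symm) (hzl.resolve_left hz1)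
    obtain ⟨A, B, e1⟩ := List.append_of_mem hz1
    have hbl₂ : b ∉ l₂ := by
      intro hb
      rcases List.eq_nil_or_concat D with rfl | ⟨D', d, rfl⟩
      · have : b = z := by
          have := hR.2.2.2; rw [eR] at this; simpa using this.symm
        subst this
        exact hzw (hd _ hz1 hb)
      · have : b = d := by
          have := hR.2.2.2; rw [eR] at this
          simp [List.getLast?_append, List.getLast?_cons] at this
          exact this.symm
        subst this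
        exact hD b (by simp) (Or.inr hb)
    have p1 : IsP G (A ++ z :: D) a₁ b := by
      refine (e1 ▸ h₁).splice (eR ▸ hR) fun x hx hx' => hD x hx (Or.inl ?_)
      rw [e1]; simp at hx' ⊢; tauto
    have hwA : w ∉ A ++ [z] := by
      intro hw
      have hn := h₁.2.1
      have hl := h₁.2.2.2
      rw [e1] at hn hl
      rcases List.eq_nil_or_concat B with rfl | ⟨B', q, rfl⟩
      · simp at hl; exact hzw hl
      · simp [List.getLast?_append, List.getLast?_cons] at hl
        subst hl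
        have e' : A ++ z :: B'.concat q = (A ++ [z]) ++ (B' ++ [q]) := by simp
        rw [e'] at hn
        exact (List.disjoint_of_nodup_append hn hw) (by simp)
    refine ⟨A ++ z :: D, l₂ ++ [b], a₁, a₂, p1, h₂.concat hab hbl₂, ha₁, ha₂, hne, ?_, ?_, ?_, ?_⟩
    · intro x hx
      simp only [List.mem_append, List.mem_cons, List.mem_singleton] at hx
      rcases hx with (hx | rfl | hx) | hx | hx
      · exact hS x (Or.inl (by rw [e1]; simp [hx]))
      · exact hRS _ hzR
      · exact hRS x (by rw [eR]; simp [hx])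
      · exact hS x (Or.inr hx)
      · simp only [List.not_mem_nil, or_false] at hx
        exact hRS x (hx ▸ hbR)
    · intro x hx hx'
      simp only [List.mem_append, List.mem_singleton] at hx'
      rcases hx' with hx' | rfl
      · simp only [List.mem_append, List.mem_cons] at hx
        rcases hx with hx | rfl | hx
        · have := hd x (by rw [e1]; simp [hx]) hx'
          exact absurd (by rw [← this]; simp [hx]) hwA
        · exact absurd (hd _ hz1 hx') hzw
        · exact absurd (Or.inr hx') (hD x hx)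
      · rfl
    · intro x hx hxX
      simp only [List.mem_append, List.mem_cons] at hx
      rcases hx with hx | rfl | hx
      · exact hX₁ x (by rw [e1]; simp [hx]) hxX
      · exact hX₁ _ hz1 hxX
      · have hxu := hRX x (by rw [eR]; simp [hx]) hxX
        subst hxu
        exfalso
        have hh := hR.2.2.1
        have hn := hR.2.1
        rw [eR] at hh hn
        have e' : C ++ z :: D = (C ++ [z]) ++ D := by simp
        rw [e'] at hh hn
        rw [List.head?_append_of_ne_nil _ (by simp)] at hh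
        exact List.disjoint_of_nodup_append hn (List.mem_of_mem_head? hh) hx
    · intro x hx hxX
      simp only [List.mem_append, List.mem_singleton] at hx
      rcases hx with hx | rfl
      · exact hX₂ x hx hxX
      · exact absurd hxX hbX
  · simp only [not_exists, not_and, not_or] at hz
    have hb1 := (hz b hbR).1
    refine ⟨R, l₁ ++ [b], u, a₁, hR, h₁.concat hab hb1, hu, ha₁, ?_, ?_, ?_, hRX, ?_⟩
    · intro e; exact (hz u hR.head_mem).1 (e ▸ h₁.head_mem)
    · intro x hx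
      simp only [List.mem_append, List.mem_singleton] at hx
      rcases hx with hx | hx | rfl
      · exact hRS x hx
      · exact hS x (Or.inl hx)
      · exact hRS _ hbR
    · intro x hx hx'
      simp only [List.mem_append, List.mem_singleton] at hx'
      rcases hx' with hx' | rfl
      · exact absurd hx' (hz x hx).1
      · rfl
    · intro x hx hxX
      simp only [List.mem_append, List.mem_singleton] at hx
      rcases hx with hx | rfl
      · exact hX₁ x hx hxX
      · exact absurd hxX hbX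

theorem fan {S X : Finset V} (hS : Conn G S) (hn : NoCut G S) (hX : X ⊆ S) (hX2 : 2 ≤ X.card)
    {y : V} (hy : y ∈ S) (hyX : y ∉ X) : Fan G S X y := by
  classical
  set A := S.filter fun y => y ∈ X ∨ Fan G S X y with hA
  by_cases e : A = S
  · rw [← e] at hy; exact ((mem_filter.mp hy).2).resolve_left hyX
  exfalso
  have hXne : X.Nonempty := card_pos.mp (by omega)
  obtain ⟨w, hw, b, hb, hab⟩ :=
    hS A (filter_subset _ _) (hXne.mono fun x hx => mem_filter.mpr ⟨hX hx, Or.inl hx⟩) e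
  obtain ⟨hbS, hbA⟩ := mem_sdiff.mp hb
  obtain ⟨hwS, hw'⟩ := mem_filter.mp hw
  have hbX : b ∉ X := fun h => hbA (mem_filter.mpr ⟨hbS, Or.inl h⟩)
  have hbw : b ≠ w := hab.symm.ne
  refine hbA (mem_filter.mpr ⟨hbS, Or.inr ?_⟩)
  by_cases hwX : w ∈ X
  · obtain ⟨R, u, hR, hu, hRS, hRX⟩ :=
      (hn w hwS).reach (X := X.erase w) (erase_subset_erase w hX)
        (card_pos.mp (by rw [card_erase_of_mem hwX]; omega)) (mem_erase.mpr ⟨hbw, hbS⟩)
    refine ⟨R, [w, b], u, w, hR, ?_, mem_of_mem_erase hu, hwX, ne_of_mem_erase hu, ?_, ?_, ?_, ?_⟩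
    · exact (isP_singleton b).cons hab (by simpa using hbw.symm)
    · intro x hx
      rcases hx with hx | hx
      · exact mem_of_mem_erase (hRS x hx)
      · simp at hx; rcases hx with rfl | rfl
        · exact hwS
        · exact hbS
    · intro x hx hx'
      simp at hx'
      rcases hx' with rfl | rfl
      · exact absurd (hRS _ hx) (by simp)
      · rfl
    · intro x hx hxX
      exact hRX x hx (mem_erase.mpr ⟨ne_of_mem_erase (hRS x hx), hxX⟩)
    · intro x hx hxX
      simp at hx; rcases hx with rfl | rfl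
      · rfl
      · exact absurd hxX hbX
  · obtain ⟨l₁, l₂, a₁, a₂, h₁, h₂, ha₁, ha₂, hne, hSs, hd, hX₁, hX₂⟩ := hw'.resolve_left hwX
    obtain ⟨R, u, hR, hu, hRS, hRX⟩ :=
      (hn w hwS).reach (X := X)
        (fun x hx => mem_erase.mpr ⟨fun e => hwX (e ▸ hx), hX hx⟩) hXne
        (mem_erase.mpr ⟨hbw, hbS⟩)
    exact fan_step h₁ h₂ ha₁ ha₂ hne hSs hd hX₁ hX₂ hR hu hRX
      (fun x hx => mem_of_mem_erase (hRS x hx)) (fun h => by simpa using hRS w h) hbX hab

/-- Cut a path at its first member of `Y`. -/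
theorem IsP.trim {l : List V} {u v : V} {Y : Finset V} (h : IsP G l u v) (hv : v ∈ Y) :
    ∃ l' v', IsP G l' u v' ∧ v' ∈ Y ∧ (∀ x ∈ l', x ∈ l) ∧ (∀ x ∈ l', x ∈ Y → x = v') ∧
      (v' = v → ∀ x ∈ l, x ∈ Y → x = v) := by
  obtain ⟨A, z, B, e, hz, hA⟩ := exists_split_first (P := fun x => x ∈ Y) ⟨v, h.last_mem, hv⟩
  subst e
  refine ⟨A ++ [z], z, h.left, hz, fun x hx => by simp at hx ⊢; tauto, ?_, ?_⟩
  · intro x hx hxY
    simp at hx; rcases hx with hx | rfl
    · exact absurd hxY (hA x hx)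
    · rfl
  · intro e x hx hxY
    rcases List.eq_nil_or_concat B with rfl | ⟨B', q, rfl⟩
    · simp at hx; rcases hx with hx | rfl
      · exact absurd hxY (hA x hx)
      · exact e
    · exfalso
      have hl := h.2.2.2
      have hn := h.2.1
      simp [List.getLast?_append, List.getLast?_cons] at hl
      subst e; subst hl
      simp [List.nodup_append] at hn

theorem linkage {S X Y : Finset V} (hS : Conn G S) (hn : NoCut G S) (hX : X ⊆ S) (hY : Y ⊆ S)
    (hd : Disjoint X Y) (hX2 : 2 ≤ X.card) (hY2 : 2 ≤ Y.card) :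
    ∃ l₁ l₂ a₁ b₁ a₂ b₂, Link G S X Y l₁ l₂ a₁ b₁ a₂ b₂ := by
  classical
  obtain ⟨y, hy⟩ := card_pos.mp (by omega : 0 < Y.card)
  obtain ⟨l₁, l₂, a₁, a₂, h₁, h₂, ha₁, ha₂, hne, hSs, hdis, hX₁, hX₂⟩ :=
    fan hS hn hX hX2 (hY hy) (fun h => disjoint_left.mp hd h hy)
  obtain ⟨m₁, b₁, q₁, hb₁, s₁, hY₁, t₁⟩ := h₁.trim hy
  obtain ⟨m₂, b₂, q₂, hb₂, s₂, hY₂, t₂⟩ := h₂.trim hy
  by_cases hb : b₁ = y ∧ b₂ = y
  · obtain ⟨rfl, rfl⟩ := hb
    have u₁ := t₁ rfl
    have u₂ := t₂ rfl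
    have hXe : X ⊆ S.erase b₂ := fun x hx =>
      mem_erase.mpr ⟨fun e => disjoint_left.mp hd hx (e ▸ hy), hX hx⟩
    obtain ⟨y', hy'⟩ := card_pos.mp
      (by rw [card_erase_of_mem hy]; omega : 0 < (Y.erase b₂).card)
    obtain ⟨R₀, u, hR₀, hu, hRS₀, hRX₀⟩ := (hn _ (hY hy)).reach hXe (card_pos.mp (by omega))
      (mem_erase.mpr ⟨ne_of_mem_erase hy', hY (mem_of_mem_erase hy')⟩)
    obtain ⟨R, v, hR, hv, sR, hRY₀, -⟩ := hR₀.trim (mem_of_mem_erase hy')
    have hRS : ∀ x ∈ R, x ∈ S ∧ x ≠ b₂ := fun x hx =>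
      ⟨mem_of_mem_erase (hRS₀ x (sR x hx)), ne_of_mem_erase (hRS₀ x (sR x hx))⟩
    have hRX : ∀ x ∈ R, x ∈ X → x = u := fun x hx => hRX₀ x (sR x hx)
    have hvy : v ≠ b₂ := (hRS v hR.last_mem).2
    by_cases hz : ∃ x ∈ R, x ∈ l₁ ∨ x ∈ l₂
    · obtain ⟨C, z, D, eR, hzl, hD⟩ := exists_split_last hz
      have hzR : z ∈ R := by rw [eR]; simp
      suffices key : ∀ (l₁ l₂ : List V) (a₁ a₂ : V), IsP G l₁ a₁ b₂ → IsP G l₂ a₂ b₂ → a₁ ∈ X →
          a₂ ∈ X → (∀ x, x ∈ l₁ ∨ x ∈ l₂ → x ∈ S) → (∀ x ∈ l₁, x ∈ l₂ → x = b₂) →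
          (∀ x ∈ l₁, x ∈ X → x = a₁) → (∀ x ∈ l₂, x ∈ X → x = a₂) →
          (∀ x ∈ l₁, x ∈ Y → x = b₂) → (∀ x ∈ l₂, x ∈ Y → x = b₂) →
          (∀ x ∈ D, ¬(x ∈ l₁ ∨ x ∈ l₂)) → z ∈ l₁ →
          ∃ l₁ l₂ a₁ b₁ a₂ b₂, Link G S X Y l₁ l₂ a₁ b₁ a₂ b₂ by
        rcases hzl with hz1 | hz2
        · exact key l₁ l₂ a₁ a₂ h₁ h₂ ha₁ ha₂ hSs hdis hX₁ hX₂ u₁ u₂ hD hz1
        · exact key l₂ l₁ a₂ a₁ h₂ h₁ ha₂ ha₁ (fun x hx => hSs x hx.symm)
            (fun x hx hx' => hdis x hx' hx) hX₂ hX₁ u₂ u₁ (fun x hx h => hD x hx h.symm) hz2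
      intro l₁ l₂ a₁ a₂ h₁ h₂ ha₁ ha₂ hSs hdis hX₁ hX₂ u₁ u₂ hD hz1
      obtain ⟨A, B, e1⟩ := List.append_of_mem hz1
      have p1 : IsP G (A ++ z :: D) a₁ v := by
        refine (e1 ▸ h₁).splice (eR ▸ hR) fun x hx hx' => hD x hx (Or.inl ?_)
        rw [e1]; simp at hx' ⊢; tauto
      have hbA : b₂ ∉ A ++ [z] := by
        intro hw
        have hn := h₁.2.1
        have hl := h₁.2.2.2
        rw [e1] at hn hl
        rcases List.eq_nil_or_concat B with rfl | ⟨B', q, rfl⟩
        · simp at hl; exact (hRS z hzR).2 hl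
        · simp [List.getLast?_append, List.getLast?_cons] at hl
          subst hl
          have e' : A ++ z :: B'.concat q = (A ++ [z]) ++ (B' ++ [q]) := by simp
          rw [e'] at hn
          exact (List.disjoint_of_nodup_append hn hw) (by simp)
      refine ⟨A ++ z :: D, l₂, a₁, v, a₂, b₂, p1, h₂, ha₁, ha₂, hv, hy, ?_, ?_, ?_, ?_, hX₂, u₂⟩
      · intro x hx
        simp only [List.mem_append, List.mem_cons] at hx
        rcases hx with (hx | rfl | hx) | hx
        · exact hSs x (Or.inl (by rw [e1]; simp [hx]))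
        · exact (hRS _ hzR).1
        · exact (hRS x (by rw [eR]; simp [hx])).1
        · exact hSs x (Or.inr hx)
      · intro x hx hx'
        simp only [List.mem_append, List.mem_cons] at hx
        rcases hx with hx | rfl | hx
        · have := hdis x (by rw [e1]; simp [hx]) hx'
          exact hbA (by rw [← this]; simp [hx])
        · exact (hRS _ hzR).2 (hdis _ hz1 hx')
        · exact hD x hx (Or.inr hx')
      · intro x hx hxX
        simp only [List.mem_append, List.mem_cons] at hx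
        rcases hx with hx | rfl | hx
        · exact hX₁ x (by rw [e1]; simp [hx]) hxX
        · exact hX₁ _ hz1 hxX
        · have hxu := hRX x (by rw [eR]; simp [hx]) hxX
          subst hxu
          exfalso
          have hh := hR.2.2.1
          have hn := hR.2.1
          rw [eR] at hh hn
          have e' : C ++ z :: D = (C ++ [z]) ++ D := by simp
          rw [e'] at hh hn
          rw [List.head?_append_of_ne_nil _ (by simp)] at hh
          exact List.disjoint_of_nodup_append hn (List.mem_of_mem_head? hh) hx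
      · intro x hx hxY
        simp only [List.mem_append, List.mem_cons] at hx
        rcases hx with hx | rfl | hx
        · have := u₁ x (by rw [e1]; simp [hx]) hxY
          exact absurd (by rw [← this]; simp [hx]) hbA
        · exact hRY₀ _ hzR hxY
        · exact hRY₀ x (by rw [eR]; simp [hx]) hxY
    · simp only [not_exists, not_and, not_or] at hz
      exact ⟨R, l₁, u, v, a₁, b₂, hR, h₁, hu, ha₁, hv, hy,
        fun x hx => hx.elim (fun h => (hRS x h).1) (fun h => hSs x (Or.inl h)),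
        fun x hx hx' => (hz x hx).1 hx', hRX, hRY₀, hX₁, u₁⟩
  · refine ⟨m₁, m₂, a₁, b₁, a₂, b₂, q₁, q₂, ha₁, ha₂, hb₁, hb₂,
      fun x hx => hSs x (hx.imp (s₁ x) (s₂ x)), ?_,
      fun x hx => hX₁ x (s₁ x hx), hY₁, fun x hx => hX₂ x (s₂ x hx), hY₂⟩
    intro x hx hx'
    have hxy := hdis x (s₁ x hx) (s₂ x hx')
    subst hxy
    exact hb ⟨(hY₁ _ hx hy).symm, (hY₂ _ hx' hy).symm⟩

end Vale.Agent.P048.Cycle
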