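import Vale.Agent.P048.Cycle.Ports

/-!
`R(C_m, K_n) = (m-1)(n-1)+1` for `2n ≤ m`.
-/

namespace Vale.Agent.P048.Cycle

open Finset

theorem HasCyc.map {U V : Type*} {G : SimpleGraph V} {f : U → V} (hf : Function.Injective f)
    {L : ℕ} (h : HasCyc (G.comap f) L) : HasCyc G L := by
  obtain ⟨l, u, v, ⟨hc, hn, hh, hl⟩, hvu, hlen⟩ := h
  refine ⟨l.map f, f u, f v, ⟨?_, hn.map hf, by simp [hh], by simp [hl]⟩, hvu, by simpa using hlen⟩
  exact List.isChain_map_of_isChain f (fun a b hab => hab) hc

theorem Ctx.absurd' {V : Type*} [Fintype V] [DecidableEq V] {G : SimpleGraph V} {k r : ℕ}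
    (h : Ctx G k r) : False := by
  classical
  have hk := h.hk
  have hr := h.hr
  obtain ⟨v, -⟩ := h.nonempty
  have hQne : ({v} : Finset V).Nonempty := singleton_nonempty v
  have hQc : ∀ x ∈ ({v} : Finset V), ∀ y ∈ ({v} : Finset V), x ≠ y → G.Adj x y := by
    intro x hx y hy hxy
    simp at hx hy
    exact absurd (hx.trans hy.symm) hxy
  have h0 : layer G {v} 0 = {v} := by
    ext x; simp [layer, h.lev_zero hQne]
  refine h.count hQne (fun _ => 0) fun i hi => ?_
  simp only [Nat.add_zero, ite_self]
  rcases Nat.eq_zero_or_pos i with rfl | hi1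
  · rw [h0, card_singleton]
    have := Nat.mul_le_mul_left k (al_pos (G := G) hQne)
    omega
  by_contra hcon
  have hne : (layer G {v} i).Nonempty := by
    rw [nonempty_iff_ne_empty]
    intro e; simp [e] at hcon
  obtain ⟨H, hH, hm⟩ := exists_minDense (c := 2) (K := k) (e := 1) (G := G)
    (S := layer G {v} i) ⟨hne, by omega⟩
  have hHd := hm.1.2
  by_cases hal : 2 ≤ al G H
  · rcases Nat.lt_or_ge i 2 with hi2 | hi2
    · have hi' : i = 1 := by omega
      subst hi'
      have := Nat.mul_le_mul_left k hal
      refine h.hC (common_nbr (by omega) (hm.conn le_rfl) (fun x hx => ?_) (by omega) (w := v)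
        fun x hx => ?_)
      · rcases hm.deg le_rfl hx with h1 | ⟨-, h1⟩ <;> omega
      · have hx1 : lev G {v} x = 1 := by simpa [layer] using hH hx
        obtain ⟨u, hu, hux⟩ := h.lev_pred hQne (i := 0) hx1
        rw [h.lev_zero hQne, mem_singleton] at hu
        exact hu ▸ hux
    · exact h.core_layer hQc hQne hi2 hH hm hal
  · have := al_pos (G := G) hm.1.1
    rw [show al G H = 1 by omega] at hHd
    exact h.no_big_clique (clique_of_al_le_one (show al G H ≤ 1 by omega)) (by omega)

/-- A graph without `C_(k+1)` and without `r+1` independent vertices has at most `k r` vertices. -/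
theorem card_le {k : ℕ} : ∀ (r : ℕ) {V : Type} [Fintype V] [DecidableEq V] (G : SimpleGraph V),
    2 * r + 1 ≤ k → al G univ ≤ r → ¬HasCyc G (k + 1) → Fintype.card V ≤ k * r := by
  intro r
  induction r using Nat.strong_induction_on with
  | _ r ih =>
    intro V _ _ G hk hal hC
    by_contra hbig
    rcases Nat.lt_or_ge r 2 with hr | hr
    · interval_cases r
      · have : (univ : Finset V).Nonempty := by
          rw [← card_pos, card_univ]; omega
        have := al_pos (G := G) this
        omega
      · refine hC (clique_cyc (clique_of_al_le_one hal) (by omega) ?_)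
        rw [card_univ]; omega
    refine Ctx.absurd' (G := G) (k := k) (r := r) ⟨hk, hr, hal, by omega, hC, fun U hU => ?_⟩
    have := ih (al G U) hU (G.comap (fun x : {x // x ∈ U} => x.val)) (by omega) ?_
      (fun hc => hC (hc.map Subtype.val_injective))
    · simpa using this
    · obtain ⟨J, j1, j2, j3⟩ := exists_al (G.comap (fun x : {x // x ∈ U} => x.val)) univ
      rw [← j3, ← card_image_of_injective J Subtype.val_injective]
      refine le_al (fun x hx => ?_) ?_
      · obtain ⟨y, -, rfl⟩ := mem_image.mp hx; exact y.2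
      · intro a ha b hb
        obtain ⟨a', ha', rfl⟩ := mem_image.mp ha
        obtain ⟨b', hb', rfl⟩ := mem_image.mp hb
        exact j2 a' ha' b' hb'

theorem HasCyc.contained {V : Type*} {G : SimpleGraph V} {m : ℕ} (hm : 3 ≤ m) (h : HasCyc G m) :
    (SimpleGraph.cycleGraph m).IsContained G := by
  obtain ⟨l, u, v, hp, hvu, hlen⟩ := h
  obtain ⟨f, hf, hf0, hf1, -⟩ := hp.toPF
  rw [hlen] at hf hf1
  have step : ∀ a b : Fin m, (a - b).val = 1 → G.Adj (f b.val) (f a.val) := by
    intro a b hab
    rcases Nat.lt_or_ge (b.val + 1) m with hlt | hge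
    · have : a.val = b.val + 1 := by
        rw [Fin.sub_def] at hab
        simp only at hab
        have := a.isLt
        rcases Nat.lt_or_ge a.val b.val with h1 | h1
        · rw [Nat.mod_eq_of_lt (by omega)] at hab; omega
        · rw [show m - b.val + a.val = m + (a.val - b.val) by omega, Nat.add_mod_left,
            Nat.mod_eq_of_lt (by omega)] at hab
          omega
      rw [this]
      exact hf.2 b.val (by omega)
    · have : a.val = 0 := by
        rw [Fin.sub_def] at hab
        simp only at hab
        have := a.isLt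
        rcases Nat.lt_or_ge a.val b.val with h1 | h1
        · rw [Nat.mod_eq_of_lt (by omega)] at hab; omega
        · rw [show m - b.val + a.val = m + (a.val - b.val) by omega, Nat.add_mod_left,
            Nat.mod_eq_of_lt (by omega)] at hab
          omega
      rw [this, show b.val = m - 1 by omega, hf0, hf1]
      exact hvu
  refine ⟨⟨⟨fun a => f a.val, ?_⟩, fun a b e => Fin.ext (hf.1 _ _ (by omega) (by omega) e)⟩⟩
  intro a b hab
  rcases SimpleGraph.cycleGraph_adj'.mp hab with h' | h'
  · exact (step a b h').symm
  · exact step b a h'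

/-- Disjoint cliques of order `m-1`. -/
def blocks (m N : ℕ) : SimpleGraph (Fin N) where
  Adj a b := a ≠ b ∧ a.val / (m - 1) = b.val / (m - 1)
  symm := ⟨fun _ _ h => ⟨h.1.symm, h.2.symm⟩⟩
  loopless := ⟨fun _ h => h.1 rfl⟩

theorem blocks_bad {m n N : ℕ} (hm : 3 ≤ m) (hn : 2 ≤ n) (hN : N ≤ (m - 1) * (n - 1)) :
    ¬(SimpleGraph.cycleGraph m).IsContained (blocks m N) ∧ (blocks m N).IndepSetFree n := by
  constructor
  · rintro ⟨c⟩
    have hconst : ∀ i, (h : i < m) →
        (c ⟨i, h⟩).val / (m - 1) = (c ⟨0, by omega⟩).val / (m - 1) := by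
      intro i
      induction i with
      | zero => intro h; rfl
      | succ i ih =>
        intro h
        rw [← ih (by omega)]
        have hadj : (SimpleGraph.cycleGraph m).Adj ⟨i + 1, h⟩ ⟨i, by omega⟩ := by
          rw [SimpleGraph.cycleGraph_adj']
          refine Or.inl ?_
          rw [Fin.sub_def]
          simp only
          rw [show m - i + (i + 1) = m + 1 by omega, Nat.add_mod_left, Nat.mod_eq_of_lt (by omega)]
        have h2 : _ ≠ _ ∧ _ = _ := c.toHom.map_adj hadj
        exact h2.2
    have hinj : Function.Injective fun a : Fin m =>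
        (⟨(c a).val % (m - 1), Nat.mod_lt _ (by omega)⟩ : Fin (m - 1)) := by
      intro a b e
      simp only [Fin.mk.injEq] at e
      refine c.injective (Fin.ext ?_)
      show (c a).val = (c b).val
      have h1 := hconst a.val a.isLt
      have h2 := hconst b.val b.isLt
      rw [← Nat.div_add_mod (c a).val (m - 1), ← Nat.div_add_mod (c b).val (m - 1), e, h1, h2]
    have := Fintype.card_le_of_injective _ hinj
    simp at this
    omega
  · intro s hs
    rw [SimpleGraph.isNIndepSet_iff] at hs
    obtain ⟨hs, hcard⟩ := hs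
    have : s.card ≤ (range (n - 1)).card := by
      refine card_le_card_of_injOn (fun a => a.val / (m - 1)) (fun a _ => ?_) fun a ha b hb e => ?_
      · simp only [coe_range, Set.mem_Iio]
        rw [Nat.div_lt_iff_lt_mul (by omega), Nat.mul_comm]
        exact lt_of_lt_of_le a.isLt hN
      · by_contra hne
        exact hs ha hb hne (show a ≠ b ∧ a.val / (m - 1) = b.val / (m - 1) from ⟨hne, e⟩)
    rw [hcard, card_range] at this
    omega

/-- The Ramsey number identity for `2n ≤ m`. -/
theorem ramsey_cycle_complete {m n : ℕ} (hn : 3 ≤ n) (hm : 2 * n ≤ m) :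
    IsLeast {N : ℕ | ∀ G : SimpleGraph (Fin N),
      (SimpleGraph.cycleGraph m).IsContained G ∨ ¬G.IndepSetFree n} ((m - 1) * (n - 1) + 1) := by
  constructor
  · intro G
    by_contra hc
    simp only [not_or, not_not] at hc
    obtain ⟨hG, hfree⟩ := hc
    have hal : al G univ ≤ n - 1 := by
      obtain ⟨J, -, j2, j3⟩ := exists_al G univ
      by_contra hh
      obtain ⟨K, hK, hKc⟩ := exists_subset_card_eq (show n ≤ J.card by omega)
      refine hfree K ⟨fun a ha b hb _ => j2 a (hK ha) b (hK hb), hKc⟩
    have := card_le (n - 1) G (k := m - 1) (by omega) hal fun hc => hG (by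
      rw [show m - 1 + 1 = m by omega] at hc
      exact hc.contained (by omega))
    rw [Fintype.card_fin] at this
    omega
  · intro N hN
    by_contra hlt
    obtain ⟨h1, h2⟩ := blocks_bad (m := m) (n := n) (N := N) (by omega) (by omega) (by omega)
    rcases hN (blocks m N) with h | h
    · exact h1 h
    · exact h h2

end Vale.Agent.P048.Cycle
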