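import Vale.Agent.P048.Cycle.Basic
import Vale.Agent.P048.Cycle.Linkage

/-!
If every independent set has at most `r` vertices, `2r+1 ≤ k`, there is no `(k+1)`-cycle and no cut
vertex, then two disjoint cliques have at most `k` vertices together.
-/

namespace Vale.Agent.P048.Cycle

open Finset

variable {V : Type*} [DecidableEq V] {G : SimpleGraph V}

theorem clique_path {A : Finset V} (hA : ∀ x ∈ A, ∀ y ∈ A, x ≠ y → G.Adj x y) :
    ∀ (E l : List V) (u v : V), IsP G l u v → v ∈ A → E.Nodup → (∀ x ∈ E, x ∈ A) →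
      (∀ x ∈ E, x ∉ l) → ∃ w, IsP G (l ++ E) u w ∧ w ∈ A ∧ (w ∈ E ∨ w = v) := by
  intro E
  induction E with
  | nil => intro l u v h hv _ _ _; exact ⟨v, by simpa using h, hv, Or.inr rfl⟩
  | cons e E ih =>
    intro l u v h hv hn hEA hd
    have he : e ∉ l := hd e (by simp)
    have hne : v ≠ e := fun h' => he (h' ▸ h.last_mem)
    obtain ⟨hne', hn'⟩ := List.nodup_cons.mp hn
    obtain ⟨w, h1, h2, h3⟩ := ih (l ++ [e]) u e (h.concat (hA v hv e (hEA e (by simp)) hne) he)
      (hEA e (by simp)) hn' (fun x hx => hEA x (by simp [hx])) (fun x hx => by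
        simp only [List.mem_append, List.mem_singleton, not_or]
        exact ⟨hd x (by simp [hx]), fun h' => hne' (h' ▸ hx)⟩)
    refine ⟨w, by simpa using h1, h2, Or.inl ?_⟩
    rcases h3 with h3 | rfl <;> simp [*]

/-- Vertices of a finset outside two given ones, as a list of prescribed length. -/
theorem exists_extra (A : Finset V) (a b : V) (c : ℕ) (hc : c + 2 ≤ A.card) :
    ∃ E : List V, E.Nodup ∧ E.length = c ∧ ∀ x ∈ E, x ∈ A ∧ x ≠ a ∧ x ≠ b := by
  refine ⟨((A.erase a).erase b).toList.take c, ((A.erase a).erase b).nodup_toList.take, ?_, ?_⟩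
  · rw [List.length_take, Finset.length_toList]
    have h1 := pred_card_le_card_erase (s := A) (a := a)
    have h2 := pred_card_le_card_erase (s := A.erase a) (a := b)
    omega
  · intro x hx
    have := mem_toList.mp (List.mem_of_mem_take hx)
    simp only [mem_erase] at this
    exact ⟨this.2.2, this.2.1, this.1⟩

/-- Close a path between two vertices of a clique through the clique. -/
theorem cyc_close {A : Finset V} (hA : ∀ x ∈ A, ∀ y ∈ A, x ≠ y → G.Adj x y) {l : List V} {u v : V}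
    (h : IsP G l u v) (hu : u ∈ A) (hv : v ∈ A) (huv : u ≠ v)
    (hl : ∀ x ∈ l, x ∈ A → x = u ∨ x = v) {L : ℕ} (h1 : l.length ≤ L)
    (h2 : L + 2 ≤ l.length + A.card) : HasCyc G L := by
  obtain ⟨E, hEn, hEl, hEA⟩ := exists_extra A u v (L - l.length) (by omega)
  obtain ⟨w, hw, hwA, hw'⟩ := clique_path hA E l u v h hv hEn (fun x hx => (hEA x hx).1)
    (fun x hx hxl => (hl x hxl (hEA x hx).1).elim (hEA x hx).2.1 (hEA x hx).2.2)
  refine ⟨l ++ E, u, w, hw, hA w hwA u hu ?_, by simp [hEl]; omega⟩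
  rcases hw' with h' | rfl
  · exact (hEA w h').2.1
  · exact huv.symm

variable [Fintype V]

theorem two_clique {k r : ℕ} (hk : 2 * r + 1 ≤ k) (hal : al G univ ≤ r)
    (hC : ¬HasCyc G (k + 1)) (hS : Conn G univ) (hn : NoCut G univ) {A B : Finset V}
    (hA : ∀ x ∈ A, ∀ y ∈ A, x ≠ y → G.Adj x y) (hB : ∀ x ∈ B, ∀ y ∈ B, x ≠ y → G.Adj x y)
    (hd : Disjoint A B) (hA2 : 2 ≤ A.card) (hB2 : 2 ≤ B.card) (ht : k + 1 ≤ A.card + B.card) :
    False := by
  classical
  let Q : ℕ → Prop := fun N => ∃ l₁ l₂ a₁ b₁ a₂ b₂, Link G univ A B l₁ l₂ a₁ b₁ a₂ b₂ ∧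
    l₁.length + l₂.length = N
  have hQ : ∃ N, Q N := by
    obtain ⟨l₁, l₂, a₁, b₁, a₂, b₂, h⟩ :=
      linkage hS hn (subset_univ A) (subset_univ B) hd hA2 hB2
    exact ⟨_, l₁, l₂, a₁, b₁, a₂, b₂, h, rfl⟩
  obtain ⟨l₁, l₂, a₁, b₁, a₂, b₂, hL, hlen⟩ := Nat.find_spec hQ
  have hmin : ∀ l₁' l₂' a₁' b₁' a₂' b₂', Link G univ A B l₁' l₂' a₁' b₁' a₂' b₂' →
      l₁.length + l₂.length ≤ l₁'.length + l₂'.length := fun l₁' l₂' a₁' b₁' a₂' b₂' h => by
    rw [hlen]; exact Nat.find_min' hQ ⟨l₁', l₂', a₁', b₁', a₂', b₂', h, rfl⟩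
  obtain ⟨f, hf, hf0, hf1, hfm⟩ := hL.p₁.toPF
  obtain ⟨g, hg, hg0, hg1, hgm⟩ := hL.p₂.toPF
  have hp1 := List.length_pos_of_ne_nil hL.p₁.ne_nil
  have hp2 := List.length_pos_of_ne_nil hL.p₂.ne_nil
  set e₁ := l₁.length - 1 with he₁
  set e₂ := l₂.length - 1 with he₂
  subst a₁ b₁ a₂ b₂
  have fm : ∀ i, i ≤ e₁ → f i ∈ l₁ := fun i hi => (hfm _).mpr ⟨i, hi, rfl⟩
  have gm : ∀ i, i ≤ e₂ → g i ∈ l₂ := fun i hi => (hgm _).mpr ⟨i, hi, rfl⟩
  have fg : ∀ i j, i ≤ e₁ → j ≤ e₂ → f i ≠ g j := fun i j hi hj e =>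
    hL.disj _ (fm i hi) (e ▸ gm j hj)
  have fA : ∀ i, i ≤ e₁ → f i ∈ A → i = 0 := fun i hi h =>
    hf.1 i 0 hi (by omega) (hL.x₁ _ (fm i hi) h)
  have fB : ∀ i, i ≤ e₁ → f i ∈ B → i = e₁ := fun i hi h =>
    hf.1 i e₁ hi le_rfl (hL.y₁ _ (fm i hi) h)
  have gA : ∀ i, i ≤ e₂ → g i ∈ A → i = 0 := fun i hi h =>
    hg.1 i 0 hi (by omega) (hL.x₂ _ (gm i hi) h)
  have gB : ∀ i, i ≤ e₂ → g i ∈ B → i = e₂ := fun i hi h =>
    hg.1 i e₂ hi le_rfl (hL.y₂ _ (gm i hi) h)
  have he1 : 1 ≤ e₁ := by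
    by_contra h
    exact disjoint_left.mp hd hL.ha₁ (by rw [show 0 = e₁ by omega]; exact hL.hb₁)
  have he2 : 1 ≤ e₂ := by
    by_contra h
    exact disjoint_left.mp hd hL.ha₂ (by rw [show 0 = e₂ by omega]; exact hL.hb₂)
  set F := e₁ + e₂ with hF
  -- the linkage is long
  have hFk : k ≤ F := by
    by_contra hlt
    obtain ⟨E, hEn, hEl, hEB⟩ := exists_extra B (f e₁) (g e₂) (k - 1 - F - ((k - 1 - F) - (B.card - 2)))
      (by omega)
    obtain ⟨w, hw, hwB, hw'⟩ := clique_path hB E (sg f 0 e₁) (f 0) (f e₁)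
      (hf.sg (by omega) le_rfl) hL.hb₁ hEn (fun x hx => (hEB x hx).1) (fun x hx hx' => by
        obtain ⟨i, -, hi, e⟩ := mem_sg.mp hx'
        have := fB i hi (e ▸ (hEB x hx).1)
        subst this; exact (hEB x hx).2.1 e.symm)
    have hwne : w ≠ g e₂ := by
      rcases hw' with h | rfl
      · exact (hEB w h).2.2
      · exact fg _ _ le_rfl le_rfl
    have hpath := hw.append (hg.sg (Nat.zero_le e₂) le_rfl).reverse (hB w hwB _ hL.hb₂ hwne) (by
      intro x hx hx'
      rw [List.mem_reverse, mem_sg] at hx'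
      obtain ⟨j, -, hj, e⟩ := hx'
      rw [List.mem_append, mem_sg] at hx
      rcases hx with ⟨i, -, hi, rfl⟩ | hx
      · exact fg i j hi hj e.symm
      · have := gB j hj (e ▸ (hEB x hx).1)
        subst this; exact (hEB x hx).2.2 e.symm)
    refine hC (cyc_close hA hpath hL.ha₁ hL.ha₂ (fg _ _ (by omega) (by omega)) ?_
      (L := k + 1) ?_ ?_)
    · intro x hx hxA
      simp only [List.mem_append, List.mem_reverse, mem_sg] at hx
      rcases hx with (⟨i, -, hi, rfl⟩ | hx) | ⟨i, -, hi, rfl⟩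
      · left; rw [fA i hi hxA]
      · exact absurd (hEB x hx).1 (disjoint_left.mp hd hxA)
      · right; rw [gA i hi hxA]
    · simp [hEl]; omega
    · simp [hEl]; omega
  set D := F - k with hD
  -- cross edges are short or long
  have cross : ∀ i j, i ≤ e₁ → j ≤ e₂ → G.Adj (f i) (g j) → i + j ≤ D ∨ k ≤ i + j := by
    intro i j hi hj hij
    by_contra hc
    have hσ : ¬ k + 1 ≤ i + j + A.card := by
      intro hh
      refine hC (cyc_close hA ((hf.sg (Nat.zero_le i) hi).append
        (hg.sg (Nat.zero_le j) hj).reverse hij ?_) hL.ha₁ hL.ha₂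
        (fg _ _ (by omega) (by omega)) ?_ (L := k + 1) ?_ ?_)
      · intro x hx hx'
        simp only [List.mem_reverse, mem_sg] at hx hx'
        obtain ⟨a, -, ha, rfl⟩ := hx
        obtain ⟨b, -, hb, e⟩ := hx'
        exact fg a b (by omega) (by omega) e.symm
      · intro x hx hxA
        simp only [List.mem_append, List.mem_reverse, mem_sg] at hx
        rcases hx with ⟨a, -, ha, rfl⟩ | ⟨a, -, ha, rfl⟩
        · left; rw [fA a (by omega) hxA]
        · right; rw [gA a (by omega) hxA]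
      · simp; omega
      · simp; omega
    have hτ : ¬ k + 1 ≤ (e₁ - i) + (e₂ - j) + B.card := by
      intro hh
      refine hC (cyc_close hB ((hf.sg hi le_rfl).reverse.append (hg.sg hj le_rfl) hij ?_)
        hL.hb₁ hL.hb₂ (fg _ _ le_rfl le_rfl) ?_ (L := k + 1) ?_ ?_)
      · intro x hx hx'
        simp only [List.mem_reverse, mem_sg] at hx hx'
        obtain ⟨a, -, ha, rfl⟩ := hx
        obtain ⟨b, -, hb, e⟩ := hx'
        exact fg a b ha hb e.symm
      · intro x hx hxB
        simp only [List.mem_append, List.mem_reverse, mem_sg] at hx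
        rcases hx with ⟨a, -, ha, rfl⟩ | ⟨a, -, ha, rfl⟩
        · left; rw [fB a ha hxB]
        · right; rw [gB a ha hxB]
      · simp; omega
      · simp; omega
    omega
  -- new linkages from pieces of the old one
  have key : ∀ (p q : List V) (u v u' v' : V), IsP G p u v → IsP G q u' v' →
      u ∈ A → u' ∈ A → v ∈ B → v' ∈ B → (∀ x ∈ p, x ∉ q) →
      (∀ x ∈ p, x ∈ A → x = u) → (∀ x ∈ p, x ∈ B → x = v) →
      (∀ x ∈ q, x ∈ A → x = u') → (∀ x ∈ q, x ∈ B → x = v') →
      e₁ + e₂ + 2 ≤ p.length + q.length := by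
    intro p q u v u' v' h1 h2 h3 h4 h5 h6 h7 h8 h9 h10 h11
    have := hmin p q u v u' v'
      ⟨h1, h2, h3, h4, h5, h6, fun x _ => mem_univ x, h7, h8, h9, h10, h11⟩
    omega
  have chordf : ∀ i j, i + 2 ≤ j → j ≤ e₁ → ¬G.Adj (f i) (f j) := by
    intro i j hij hj h
    have := key (sg f 0 i ++ sg f j e₁) (sg g 0 e₂) _ _ _ _
      ((hf.sg (Nat.zero_le i) (by omega)).append (hf.sg hj le_rfl) h (by
        intro x hx hx'
        simp only [mem_sg] at hx hx'
        obtain ⟨a, -, ha, rfl⟩ := hx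
        obtain ⟨b, hb, hb', e⟩ := hx'
        have := hf.1 b a hb' (by omega) e
        omega)) (hg.sg (Nat.zero_le e₂) le_rfl) hL.ha₁ hL.ha₂ hL.hb₁ hL.hb₂
      (by
        intro x hx hx'
        simp only [List.mem_append, mem_sg] at hx hx'
        obtain ⟨b, -, hb, e⟩ := hx'
        rcases hx with ⟨a, -, ha, rfl⟩ | ⟨a, -, ha, rfl⟩
        · exact fg a b (by omega) hb e.symm
        · exact fg a b ha hb e.symm)
      (by
        intro x hx hxA
        simp only [List.mem_append, mem_sg] at hx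
        rcases hx with ⟨a, -, ha, rfl⟩ | ⟨a, -, ha, rfl⟩ <;> rw [fA a (by omega) hxA])
      (by
        intro x hx hxB
        simp only [List.mem_append, mem_sg] at hx
        rcases hx with ⟨a, -, ha, rfl⟩ | ⟨a, -, ha, rfl⟩ <;> rw [fB a (by omega) hxB])
      (by intro x hx hxA; obtain ⟨a, -, ha, rfl⟩ := mem_sg.mp hx; rw [gA a ha hxA])
      (by intro x hx hxB; obtain ⟨a, -, ha, rfl⟩ := mem_sg.mp hx; rw [gB a ha hxB])
    simp at this; omega
  have chordg : ∀ i j, i + 2 ≤ j → j ≤ e₂ → ¬G.Adj (g i) (g j) := by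
    intro i j hij hj h
    have := key (sg f 0 e₁) (sg g 0 i ++ sg g j e₂) _ _ _ _ (hf.sg (Nat.zero_le e₁) le_rfl)
      ((hg.sg (Nat.zero_le i) (by omega)).append (hg.sg hj le_rfl) h (by
        intro x hx hx'
        simp only [mem_sg] at hx hx'
        obtain ⟨a, -, ha, rfl⟩ := hx
        obtain ⟨b, hb, hb', e⟩ := hx'
        have := hg.1 b a hb' (by omega) e
        omega)) hL.ha₁ hL.ha₂ hL.hb₁ hL.hb₂
      (by
        intro x hx hx'
        simp only [List.mem_append, mem_sg] at hx hx'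
        obtain ⟨a, -, ha, rfl⟩ := hx
        rcases hx' with ⟨b, -, hb, e⟩ | ⟨b, -, hb, e⟩
        · exact fg a b ha (by omega) e.symm
        · exact fg a b ha hb e.symm)
      (by intro x hx hxA; obtain ⟨a, -, ha, rfl⟩ := mem_sg.mp hx; rw [fA a ha hxA])
      (by intro x hx hxB; obtain ⟨a, -, ha, rfl⟩ := mem_sg.mp hx; rw [fB a ha hxB])
      (by
        intro x hx hxA
        simp only [List.mem_append, mem_sg] at hx
        rcases hx with ⟨a, -, ha, rfl⟩ | ⟨a, -, ha, rfl⟩ <;> rw [gA a (by omega) hxA])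
      (by
        intro x hx hxB
        simp only [List.mem_append, mem_sg] at hx
        rcases hx with ⟨a, -, ha, rfl⟩ | ⟨a, -, ha, rfl⟩ <;> rw [gB a (by omega) hxB])
    simp at this; omega
  have crossing : ∀ i i' j j', i < i' → i' ≤ e₁ → j' < j → j ≤ e₂ → G.Adj (f i) (g j) →
      G.Adj (f i') (g j') → i' = i + 1 ∧ j = j' + 1 := by
    intro i i' j j' h1 h2 h3 h4 h5 h6
    have := key (sg f 0 i ++ sg g j e₂) (sg g 0 j' ++ sg f i' e₁) _ _ _ _
      ((hf.sg (Nat.zero_le i) (by omega)).append (hg.sg h4 le_rfl) h5 (by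
        intro x hx hx'
        simp only [mem_sg] at hx hx'
        obtain ⟨a, -, ha, rfl⟩ := hx
        obtain ⟨b, -, hb, e⟩ := hx'
        exact fg a b (by omega) hb e.symm))
      ((hg.sg (Nat.zero_le j') (by omega)).append (hf.sg h2 le_rfl) h6.symm (by
        intro x hx hx'
        simp only [mem_sg] at hx hx'
        obtain ⟨a, -, ha, rfl⟩ := hx
        obtain ⟨b, -, hb, e⟩ := hx'
        exact fg b a hb (by omega) e))
      hL.ha₁ hL.ha₂ hL.hb₂ hL.hb₁
      (by
        intro x hx hx'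
        simp only [List.mem_append, mem_sg] at hx hx'
        rcases hx with ⟨a, ha0, ha, rfl⟩ | ⟨a, ha0, ha, rfl⟩ <;>
          rcases hx' with ⟨b, hb0, hb, e⟩ | ⟨b, hb0, hb, e⟩
        · exact fg a b (by omega) (by omega) e.symm
        · have := hf.1 b a hb (by omega) e; omega
        · have := hg.1 b a (by omega) ha e; omega
        · exact fg b a hb ha e)
      (by
        intro x hx hxA
        simp only [List.mem_append, mem_sg] at hx
        rcases hx with ⟨a, -, ha, rfl⟩ | ⟨a, ha0, ha, rfl⟩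
        · rw [fA a (by omega) hxA]
        · have := gA a ha hxA; omega)
      (by
        intro x hx hxB
        simp only [List.mem_append, mem_sg] at hx
        rcases hx with ⟨a, -, ha, rfl⟩ | ⟨a, ha0, ha, rfl⟩
        · have := fB a (by omega) hxB; omega
        · rw [gB a ha hxB])
      (by
        intro x hx hxA
        simp only [List.mem_append, mem_sg] at hx
        rcases hx with ⟨a, -, ha, rfl⟩ | ⟨a, ha0, ha, rfl⟩
        · rw [gA a (by omega) hxA]
        · have := fA a ha hxA; omega)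
      (by
        intro x hx hxB
        simp only [List.mem_append, mem_sg] at hx
        rcases hx with ⟨a, -, ha, rfl⟩ | ⟨a, ha0, ha, rfl⟩
        · have := gB a (by omega) hxB; omega
        · rw [fB a ha hxB])
    simp at this; omega
  -- greedy independent set
  let wt : ℕ → ℕ := fun q => if q ≤ D + 2 ∨ k ≤ q then 1 else 2
  let Φ : ℕ → ℕ := fun p => ∑ q ∈ Ico p (F + 2), wt q
  let rest : ℕ → ℕ → Finset V :=
    fun i j => (Ico i (e₁ + 1)).image f ∪ (Ico j (e₂ + 1)).image g
  have memrest : ∀ i j x, x ∈ rest i j ↔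
      (∃ a, i ≤ a ∧ a ≤ e₁ ∧ f a = x) ∨ (∃ b, j ≤ b ∧ b ≤ e₂ ∧ g b = x) := by
    intro i j x
    simp only [rest, mem_union, mem_image, mem_Ico, Nat.lt_succ_iff, and_assoc]
  have Φle : ∀ c p q, q ≤ p + c → Φ p ≤ Φ q + 2 * c := by
    intro c p q hq
    have h1 : Φ p ≤ ∑ x ∈ Ico p (p + c) ∪ Ico q (F + 2), wt x := by
      refine sum_le_sum_of_subset fun x hx => ?_
      simp only [mem_union, mem_Ico] at hx ⊢; omega
    have h2 := sum_union_inter (s₁ := Ico p (p + c)) (s₂ := Ico q (F + 2)) (f := wt)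
    have h3 : ∑ x ∈ Ico p (p + c), wt x ≤ ∑ _x ∈ Ico p (p + c), 2 :=
      sum_le_sum fun x _ => by simp only [wt]; split_ifs <;> omega
    simp at h3
    simp only [Φ] at *
    omega
  have Φone : ∀ c p q, q ≤ p + c → (∀ x, p ≤ x → x < p + c → x ≤ D + 2 ∨ k ≤ x) →
      Φ p ≤ Φ q + c := by
    intro c p q hq hone
    have h1 : Φ p ≤ ∑ x ∈ Ico p (p + c) ∪ Ico q (F + 2), wt x := by
      refine sum_le_sum_of_subset fun x hx => ?_
      simp only [mem_union, mem_Ico] at hx ⊢; omega
    have h2 := sum_union_inter (s₁ := Ico p (p + c)) (s₂ := Ico q (F + 2)) (f := wt)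
    have h3 : ∑ x ∈ Ico p (p + c), wt x ≤ ∑ _x ∈ Ico p (p + c), 1 :=
      sum_le_sum fun x hx => by
        rw [mem_Ico] at hx
        simp only [wt]; rw [if_pos (hone x hx.1 hx.2)]
    simp at h3
    simp only [Φ] at *
    omega
  have main : ∀ N i j, (e₁ + 1 - i) + (e₂ + 1 - j) ≤ N → i ≤ e₁ + 1 → j ≤ e₂ + 1 →
      ∃ J, J ⊆ rest i j ∧ Indep G J ∧ Φ (i + j) ≤ 4 * J.card := by
    intro N
    induction N with
    | zero =>
      intro i j h1 h2 h3
      refine ⟨∅, empty_subset _, by simp [Indep], ?_⟩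
      simp [Φ, Ico_eq_empty_of_le (show F + 2 ≤ i + j by omega)]
    | succ N ih =>
      intro i j h1 h2 h3
      by_cases hend : i = e₁ + 1 ∧ j = e₂ + 1
      · refine ⟨∅, empty_subset _, by simp [Indep], ?_⟩
        simp [Φ, Ico_eq_empty_of_le (show F + 2 ≤ i + j by omega)]
      -- extend a recursive answer by vertices with no neighbour in the new rest
      have add : ∀ i' j' (P : Finset V), i ≤ i' → j ≤ j' → i' ≤ e₁ + 1 → j' ≤ e₂ + 1 →
          i + j < i' + j' → P ⊆ rest i j → Indep G P → Disjoint P (rest i' j') →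
          NoE G P (rest i' j') → Φ (i + j) ≤ Φ (i' + j') + 4 * P.card →
          ∃ J, J ⊆ rest i j ∧ Indep G J ∧ Φ (i + j) ≤ 4 * J.card := by
        intro i' j' P a b c d e hP1 hP2 hP3 hP4 hP5
        obtain ⟨J, hJ1, hJ2, hJ3⟩ := ih i' j' (by omega) c d
        refine ⟨P ∪ J, union_subset hP1 (hJ1.trans fun x hx => ?_), ?_, ?_⟩
        · rw [memrest] at hx ⊢
          rcases hx with ⟨u, h, h', h''⟩ | ⟨u, h, h', h''⟩
          · exact Or.inl ⟨u, by omega, h', h''⟩
          · exact Or.inr ⟨u, by omega, h', h''⟩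
        · intro x hx y hy
          rw [mem_union] at hx hy
          rcases hx with hx | hx <;> rcases hy with hy | hy
          · exact hP2 x hx y hy
          · exact hP4 x hx y (hJ1 hy)
          · exact fun h => hP4 y hy x (hJ1 hx) h.symm
          · exact hJ2 x hx y hy
        · rw [card_union_of_disjoint (hP3.mono_right hJ1)]
          omega
      -- pick `f i`
      have pickf : ∀ i' j', i < e₁ + 1 → i' = min (i + 2) (e₁ + 1) → j ≤ j' → j' ≤ e₂ + 1 →
          (∀ b, j' ≤ b → b ≤ e₂ → ¬G.Adj (f i) (g b)) → Φ (i + j) ≤ Φ (i' + j') + 4 →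
          ∃ J, J ⊆ rest i j ∧ Indep G J ∧ Φ (i + j) ≤ 4 * J.card := by
        intro i' j' hi hi' hj hj' hno hΦ
        refine add i' j' {f i} (by omega) hj (by omega) hj' (by omega) ?_ ?_ ?_ ?_ (by simpa using hΦ)
        · rw [singleton_subset_iff, memrest]; exact Or.inl ⟨i, le_rfl, by omega, rfl⟩
        · intro a ha b hb; simp at ha hb; subst ha; subst hb; exact G.irrefl
        · rw [disjoint_singleton_left, memrest]
          rintro (⟨a, ha, ha', e⟩ | ⟨b, hb, hb', e⟩)
          · have := hf.1 a i ha' (by omega) e; omega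
          · exact fg i b (by omega) hb' e.symm
        · intro a ha b hb
          simp at ha; subst ha
          rw [memrest] at hb
          rcases hb with ⟨c, hc, hc', rfl⟩ | ⟨c, hc, hc', rfl⟩
          · exact chordf i c (by omega) hc'
          · exact hno c hc hc'
      -- pick `g j`
      have pickg : ∀ i' j', j < e₂ + 1 → j' = min (j + 2) (e₂ + 1) → i ≤ i' → i' ≤ e₁ + 1 →
          (∀ a, i' ≤ a → a ≤ e₁ → ¬G.Adj (f a) (g j)) → Φ (i + j) ≤ Φ (i' + j') + 4 →
          ∃ J, J ⊆ rest i j ∧ Indep G J ∧ Φ (i + j) ≤ 4 * J.card := by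
        intro i' j' hj hj' hi hi' hno hΦ
        refine add i' j' {g j} hi (by omega) hi' (by omega) (by omega) ?_ ?_ ?_ ?_ (by simpa using hΦ)
        · rw [singleton_subset_iff, memrest]; exact Or.inr ⟨j, le_rfl, by omega, rfl⟩
        · intro a ha b hb; simp at ha hb; subst ha; subst hb; exact G.irrefl
        · rw [disjoint_singleton_left, memrest]
          rintro (⟨a, ha, ha', e⟩ | ⟨b, hb, hb', e⟩)
          · exact fg a j ha' (by omega) e
          · have := hg.1 b j hb' (by omega) e; omega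
        · intro a ha b hb
          simp at ha; subst ha
          rw [memrest] at hb
          rcases hb with ⟨c, hc, hc', rfl⟩ | ⟨c, hc, hc', rfl⟩
          · exact fun h => hno c hc hc' h.symm
          · exact chordg j c (by omega) hc'
      by_cases hx : i ≤ e₁ ∧ ∀ b, j ≤ b → b ≤ e₂ → ¬G.Adj (f i) (g b)
      · exact pickf _ j (by omega) rfl le_rfl h3 hx.2
          (Φle 2 (i + j) (min (i + 2) (e₁ + 1) + j) (by omega))
      by_cases hy : j ≤ e₂ ∧ ∀ a, i ≤ a → a ≤ e₁ → ¬G.Adj (f a) (g j)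
      · exact pickg i _ (by omega) rfl le_rfl h2 hy.2
          (Φle 2 (i + j) (i + min (j + 2) (e₂ + 1)) (by omega))
      have hi : i ≤ e₁ := by
        by_contra hh
        exact hy ⟨by omega, fun a ha ha' => absurd ha' (by omega)⟩
      have hj : j ≤ e₂ := by
        by_contra hh
        exact hx ⟨hi, fun b hb hb' => absurd hb' (by omega)⟩
      simp only [hi, hj, true_and, not_forall, not_not] at hx hy
      obtain ⟨b₀, hb₀, hb₀', hxb⟩ := hx
      obtain ⟨a₀, ha₀, ha₀', hya⟩ := hy
      by_cases ca : ∀ b, j < b → b ≤ e₂ → ¬G.Adj (f i) (g b)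
      · have hb : b₀ = j := by
          by_contra hh; exact ca b₀ (by omega) hb₀' hxb
        subst hb
        have := cross i b₀ hi hj hxb
        exact pickf _ (b₀ + 1) (by omega) rfl (by omega) (by omega)
          (fun b h h' => ca b (by omega) h')
          ((Φone 3 (i + b₀) (min (i + 2) (e₁ + 1) + (b₀ + 1)) (by omega)
            (fun x hx1 hx2 => by omega)).trans (by omega))
      by_cases cb : ∀ a, i < a → a ≤ e₁ → ¬G.Adj (f a) (g j)
      · have ha : a₀ = i := by
          by_contra hh; exact cb a₀ (by omega) ha₀' hya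
        subst ha
        have := cross a₀ j hi hj hya
        exact pickg (a₀ + 1) _ (by omega) rfl (by omega) (by omega)
          (fun a h h' => cb a (by omega) h')
          ((Φone 3 (a₀ + j) (a₀ + 1 + min (j + 2) (e₂ + 1)) (by omega)
            (fun x hx1 hx2 => by omega)).trans (by omega))
      simp only [not_forall, not_not] at ca cb
      obtain ⟨b₁, hb₁, hb₁', hxb₁⟩ := ca
      obtain ⟨a₁, ha₁, ha₁', hya₁⟩ := cb
      have hsq : ∀ b, j ≤ b → b ≤ e₂ → G.Adj (f i) (g b) → b ≤ j + 1 := by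
        intro b hb hb' h
        by_contra hh
        have := crossing i a₁ b j ha₁ ha₁' (by omega) hb' h hya₁
        omega
      have hsq' : ∀ a, i ≤ a → a ≤ e₁ → G.Adj (f a) (g j) → a ≤ i + 1 := by
        intro a ha ha' h
        by_contra hh
        have := crossing i a b₁ j (by omega) ha' hb₁ hb₁' hxb₁ h
        omega
      have hb1 : b₁ = j + 1 := by have := hsq b₁ (by omega) hb₁' hxb₁; omega
      subst hb1
      by_cases hxy : G.Adj (f i) (g j)
      · have c0 := cross i j hi hj hxy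
        have c1 := cross i (j + 1) hi hb₁' hxb₁
        exact pickf _ (min (j + 2) (e₂ + 1)) (by omega) rfl (by omega) (by omega)
          (fun b h h' hh => by have := hsq b (by omega) h' hh; omega)
          ((Φone 4 (i + j) (min (i + 2) (e₁ + 1) + min (j + 2) (e₂ + 1)) (by omega)
            (fun x hx1 hx2 => by omega)).trans (by omega))
      · refine add (min (i + 2) (e₁ + 1)) (min (j + 2) (e₂ + 1)) {f i, g j} (by omega) (by omega)
          (by omega) (by omega) (by omega) ?_ ?_ ?_ ?_ ?_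
        · intro x hx
          simp at hx; rw [memrest]
          rcases hx with rfl | rfl
          · exact Or.inl ⟨i, le_rfl, hi, rfl⟩
          · exact Or.inr ⟨j, le_rfl, hj, rfl⟩
        · intro a ha b hb
          simp at ha hb
          rcases ha with rfl | rfl <;> rcases hb with rfl | rfl <;>
            first | exact G.irrefl | exact hxy | exact fun h => hxy h.symm
        · rw [disjoint_left]
          intro x hx
          simp at hx; rw [memrest]
          rcases hx with rfl | rfl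
          · rintro (⟨a, ha, ha', e⟩ | ⟨b, hb, hb', e⟩)
            · have := hf.1 a i ha' hi e; omega
            · exact fg i b hi hb' e.symm
          · rintro (⟨a, ha, ha', e⟩ | ⟨b, hb, hb', e⟩)
            · exact fg a j ha' hj e
            · have := hg.1 b j hb' hj e; omega
        · intro a ha b hb
          simp at ha; rw [memrest] at hb
          rcases ha with rfl | rfl <;> rcases hb with ⟨c, hc, hc', rfl⟩ | ⟨c, hc, hc', rfl⟩
          · exact chordf i c (by omega) hc'
          · exact fun h => by have := hsq c (by omega) hc' h; omega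
          · exact fun h => by have := hsq' c (by omega) hc' h.symm; omega
          · exact chordg j c (by omega) hc'
        · rw [card_pair (fg i j hi hj)]
          exact (Φle 4 (i + j) (min (i + 2) (e₁ + 1) + min (j + 2) (e₂ + 1)) (by omega)).trans
            (by omega)
  obtain ⟨J, -, hJ, hJc⟩ := main _ 0 0 le_rfl (by omega) (by omega)
  have hJr := (le_al (G := G) (subset_univ J) hJ).trans hal
  have htot : 2 * k ≤ Φ 0 + 1 := by
    have h1 : ∑ q ∈ Ico 0 (F + 2), (1 + if D + 2 < q ∧ q < k then 1 else 0) ≤ Φ 0 :=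
      sum_le_sum fun q _ => by
        simp only [wt]; split_ifs <;> omega
    rw [sum_add_distrib, sum_boole] at h1
    simp at h1
    have h2 : (Ico (D + 3) k) ⊆ (Ico 0 (F + 2)).filter fun q => D + 2 < q ∧ q < k := by
      intro q hq; simp at hq ⊢; omega
    have h3 := card_le_card h2
    simp at h3
    omega
  simp only [Nat.zero_add] at hJc
  omega

end Vale.Agent.P048.Cycle
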