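import Vale.Agent.P048.Cycle.Core
import Vale.Agent.P048.Cycle.TwoClique

/-!
No clique has more than half of `k + 1` vertices.
-/

namespace Vale.Agent.P048.Cycle

open Finset

variable {V : Type*} [DecidableEq V] {G : SimpleGraph V}

/-- A path outside `A` between two attachment vertices can be padded through the clique `A`. -/
theorem port_close {A : Finset V} (hA : ∀ x ∈ A, ∀ y ∈ A, x ≠ y → G.Adj x y) {l : List V}
    {u v q q' : V} (hl : IsP G l u v) (hlA : ∀ x ∈ l, x ∉ A) (hq : q ∈ A) (hq' : q' ∈ A)
    (hne : q ≠ q') (hqu : G.Adj q u) (hvq : G.Adj v q') {L : ℕ} (h1 : l.length + 2 ≤ L)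
    (h2 : L ≤ l.length + A.card) : HasCyc G L := by
  have p1 := hl.cons hqu fun hm => hlA q hm hq
  have p2 := p1.concat hvq (by
    simp only [List.mem_cons, not_or]
    exact ⟨hne.symm, fun hm => hlA q' hm hq'⟩)
  refine cyc_close hA p2 hq hq' hne (fun x hx hxA => ?_) (by simp; omega) (by simp; omega)
  simp only [List.mem_append, List.mem_cons, List.mem_singleton, List.not_mem_nil, or_false] at hx
  rcases hx with (hx | hx) | hx
  · exact Or.inl hx
  · exact absurd hxA (hlA x hx)
  · exact Or.inr hx

theorem clique_cyc {A : Finset V} (hA : ∀ x ∈ A, ∀ y ∈ A, x ≠ y → G.Adj x y) {L : ℕ}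
    (hL : 3 ≤ L) (hcard : L ≤ A.card) : HasCyc G L := by
  obtain ⟨a, ha, b, hb, hab⟩ := one_lt_card.mp (show 1 < A.card by omega)
  refine cyc_close hA ((isP_singleton (G := G) b).cons (hA a ha b hb hab) (by simpa using hab))
    ha hb hab (fun x hx _ => by simpa using hx) (by simp; omega) (by simp; omega)

open Classical in
/-- The neighbours of `x` in `Q`. -/
noncomputable def ports (G : SimpleGraph V) (Q : Finset V) (x : V) : Finset V :=
  Q.filter fun q => G.Adj q x

theorem mem_ports {Q : Finset V} {x q : V} : q ∈ ports G Q x ↔ q ∈ Q ∧ G.Adj q x := by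
  classical simp [ports]

variable [Fintype V] {k r : ℕ}

/-- The slack inequality in the first layer around a big clique. -/
theorem Ctx.slack (h : Ctx G k r) {Q : Finset V} (hQc : ∀ x ∈ Q, ∀ y ∈ Q, x ≠ y → G.Adj x y)
    (hQk : k + 1 ≤ 2 * Q.card) (htk : Q.card ≤ k) (S : Finset V) :
    (∀ x ∈ S, x ∉ Q ∧ (ports G Q x).Nonempty) →
    2 * S.card + min (2 * Q.card - k) (S.biUnion (ports G Q)).card ≤ k * al G S := by
  classical
  have hk := h.hk
  have hr := h.hr
  set t := Q.card with ht
  induction S using Finset.strongInduction with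
  | _ S ih =>
    intro hS
    rcases S.eq_empty_or_nonempty with rfl | hne
    · simp
    by_cases hconn : Conn G S
    swap
    · obtain ⟨A, B, hA, hB, hd, hAB, hn⟩ := not_conn hconn
      subst hAB
      have hAs : A ⊂ A ∪ B := by
        refine ⟨subset_union_left, fun hh => ?_⟩
        obtain ⟨b, hb⟩ := hB
        exact disjoint_left.mp hd (hh (mem_union_right _ hb)) hb
      have hBs : B ⊂ A ∪ B := by
        refine ⟨subset_union_right, fun hh => ?_⟩
        obtain ⟨a, ha⟩ := hA
        exact disjoint_left.mp hd ha (hh (mem_union_left _ ha))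
      have h1 := ih A hAs fun x hx => hS x (mem_union_left _ hx)
      have h2 := ih B hBs fun x hx => hS x (mem_union_right _ hx)
      have h3 := Nat.mul_le_mul_left k (al_add_le hd hn)
      rw [Nat.mul_add] at h3
      rw [card_union_of_disjoint hd, union_biUnion]
      have h4 := card_union_le (A.biUnion (ports G Q)) (B.biUnion (ports G Q))
      omega
    have hone := al_pos (G := G) hne
    by_cases hsingle : ∃ q, ∀ x ∈ S, ports G Q x = {q}
    · -- a single port
      obtain ⟨q, hq⟩ := hsingle
      have hqS : ∀ x ∈ S, q ∈ Q ∧ G.Adj q x := fun x hx =>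
        mem_ports.mp (by rw [hq x hx]; exact mem_singleton_self q)
      have hU : (S.biUnion (ports G Q)).card ≤ 1 := by
        refine (card_le_card (t := {q}) fun y hy => ?_).trans (by simp)
        obtain ⟨x, hx, hy⟩ := mem_biUnion.mp hy
        rw [hq x hx] at hy; exact hy
      by_contra hcon
      have hd0 : Dense G 2 k 0 S := ⟨hne, by omega⟩
      obtain ⟨H, hHS, hm⟩ := exists_minDense hd0
      have hHd := hm.1.2
      have hHpos := card_pos.mpr hm.1.1
      by_cases hal1 : al G H ≤ 1
      · have := al_pos (G := G) hm.1.1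
        rw [show al G H = 1 by omega] at hHd
        refine two_clique h.hk h.hal h.hC h.connected h.noCut hQc (clique_of_al_le_one hal1)
          ?_ (by omega) (by omega) (by omega)
        exact disjoint_left.mpr fun x hx hx' => (hS x (hHS hx')).1 hx
      · have hmul := Nat.mul_le_mul_left k (show 2 ≤ al G H by omega)
        refine h.hC (common_nbr (by omega) (hm.conn (by omega)) (fun x hx => ?_) (by omega)
          (w := q) fun x hx => (hqS x (hHS hx)).2)
        rcases hm.deg (by omega) hx with h1 | ⟨h1, -⟩ <;> omega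
    · -- several ports
      suffices hb : S.card ≤ (k - t) * al G S by
        have h1 : 2 * ((k - t) * al G S) + (2 * t - k) * al G S = k * al G S := by
          rw [← Nat.mul_assoc, ← Nat.add_mul, show 2 * (k - t) + (2 * t - k) = k by omega]
        have h2 := Nat.mul_le_mul_left (2 * t - k) hone
        omega
      -- the basic forbidden configuration
      have forb : ∀ (l : List V) (u v q q' : V), IsP G l u v → (∀ x ∈ l, x ∈ S) →
          q ∈ ports G Q u → q' ∈ ports G Q v → q ≠ q' → k + 1 ≤ l.length + t →
          l.length + 1 ≤ k → False := by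
        intro l u v q q' hl hlS hq hq' hne' h1 h2
        exact h.hC (port_close hQc hl (fun x hx => (hS x (hlS x hx)).1) (mem_ports.mp hq).1
          (mem_ports.mp hq').1 hne' (mem_ports.mp hq).2 (mem_ports.mp hq').2.symm
          (by omega) (by omega))
      by_contra hcon
      have hd0 : Dense G 1 (k - t) 1 S := ⟨hne, by omega⟩
      obtain ⟨H, hHS, hm⟩ := exists_minDense hd0
      have hHd := hm.1.2
      have hHpos := card_pos.mpr hm.1.1
      by_cases hal1 : al G H ≤ 1 ∧ 2 ≤ H.card
      · have := al_pos (G := G) hm.1.1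
        rw [show al G H = 1 by omega] at hHd
        refine two_clique h.hk h.hal h.hC h.connected h.noCut hQc (clique_of_al_le_one hal1.1)
          ?_ (by omega) (by omega) (by omega)
        exact disjoint_left.mpr fun x hx hx' => (hS x (hHS hx')).1 hx
      -- a path on `2(k-t)+1` vertices
      obtain ⟨f, l, hf, hfH, hl⟩ := long_path (hm.conn le_rfl) hm.1.1 (d := k - t) fun x hx => by
        rcases hm.deg le_rfl hx with h1 | ⟨-, h1⟩ <;> omega
      have hl2 : 2 * (k - t) ≤ l := by
        by_cases h2 : 2 ≤ al G H
        · have := Nat.mul_le_mul_left (k - t) h2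
          omega
        · have := al_pos (G := G) hm.1.1
          rw [show al G H = 1 by omega] at hHd
          omega
      set M := k - t with hM
      have hfS : ∀ i, i ≤ 2 * M → f i ∈ S := fun i hi => hHS (hfH i (by omega))
      have same : ∀ a b, a ≤ b → b ≤ 2 * M → M ≤ b - a → b + 2 ≤ a + k →
          ∀ q ∈ ports G Q (f a), ∀ q' ∈ ports G Q (f b), q = q' := by
        intro a b h1 h2 h3 h4 q hq q' hq'
        by_contra hne'
        exact forb _ _ _ q q' (hf.sg h1 (by omega)) (fun x hx => by
          obtain ⟨c, hc1, hc2, rfl⟩ := mem_sg.mp hx; exact hfS c (by omega)) hq hq' hne'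
          (by simp; omega) (by simp; omega)
      obtain ⟨q, hq⟩ := (hS _ (hfS M (by omega))).2
      have hport : ∀ i, i ≤ 2 * M → ∀ q' ∈ ports G Q (f i), q' = q := by
        intro i hi q' hq'
        obtain ⟨a, ha⟩ := (hS _ (hfS 0 (by omega))).2
        obtain ⟨b, hb⟩ := (hS _ (hfS (2 * M) le_rfl)).2
        have e1 := same 0 M (by omega) (by omega) (by omega) (by omega) a ha q hq
        have e2 := same M (2 * M) (by omega) le_rfl (by omega) (by omega) q hq b hb
        rcases Nat.lt_or_ge i M with hlt | hge
        · rcases Nat.eq_zero_or_pos i with rfl | hpos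
          · exact same 0 M (by omega) (by omega) (by omega) (by omega) q' hq' q hq
          · rw [e2]
            exact same i (2 * M) (by omega) le_rfl (by omega) (by omega) q' hq' b hb
        · by_cases htop : i = 2 * M
          · subst htop
            exact (same M (2 * M) (by omega) le_rfl (by omega) (by omega) q hq q' hq').symm
          · rw [← e1]
            exact (same 0 i (by omega) hi (by omega) (by omega) a ha q' hq').symm
      have hex : ∃ z ∈ S, ∃ q'' ∈ ports G Q z, q'' ≠ q := by
        by_contra hh
        simp only [not_exists, not_and, not_not] at hh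
        refine hsingle ⟨q, fun x hx => ?_⟩
        obtain ⟨a, ha⟩ := (hS x hx).2
        have := hh x hx a ha
        subst this
        exact eq_singleton_iff_unique_mem.mpr ⟨ha, fun b hb => hh x hx b hb⟩
      obtain ⟨z, hz, q'', hq'', hzq⟩ := hex
      set P := (range (2 * M + 1)).image f with hP
      have hPS : P ⊆ S := by
        intro x hx
        obtain ⟨i, hi, rfl⟩ := mem_image.mp hx
        exact hfS i (by simp at hi; omega)
      have hzP : z ∉ P := by
        intro hh
        obtain ⟨i, hi, rfl⟩ := mem_image.mp hh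
        exact hzq (hport i (by simp at hi; omega) q'' hq'')
      obtain ⟨R, u, hR, hu, hRS, hRX⟩ := hconn.reach (X := S.filter fun x => ∃ p ∈ ports G Q x, p ≠ q)
        (filter_subset _ _) ⟨z, mem_filter.mpr ⟨hz, q'', hq'', hzq⟩⟩ (hfS M (by omega))
      obtain ⟨p, hpu, hpq⟩ := (mem_filter.mp hu).2
      obtain ⟨R', w, hR', hw, hsub, hR'P, -⟩ :=
        hR.trim (Y := P) (mem_image.mpr ⟨M, mem_range.mpr (by omega), rfl⟩)
      obtain ⟨a, ha, rfl⟩ := mem_image.mp hw
      rw [mem_range] at ha
      have huP : u ∉ P := by
        intro hh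
        obtain ⟨i, hi, rfl⟩ := mem_image.mp hh
        exact hpq (hport i (by simp at hi; omega) p hpu)
      obtain ⟨A, B, eR⟩ := List.append_of_mem hR'.last_mem
      -- extend along the longer side of the path
      have hW : ∃ W v, IsP G W u v ∧ (∀ x ∈ W, x ∈ S) ∧ M + 1 ≤ W.length ∧ 2 ≤ W.length ∧
          ∀ x ∈ W, (∃ p ∈ ports G Q x, p ≠ q) → x = u := by
        have hlen2 : 2 ≤ R'.length := by
          by_contra hh
          obtain ⟨x, rfl⟩ : ∃ x, R' = [x] := List.length_eq_one_iff.mp (by
            have := List.length_pos_of_ne_nil hR'.ne_nil; omega)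
          have h1 := hR'.2.2.1
          have h2 := hR'.2.2.2
          simp at h1 h2
          exact huP (mem_image.mpr ⟨a, mem_range.mpr ha, h2.symm.trans h1⟩)
        have hmem : ∀ x ∈ R', x ∈ S := fun x hx => hRS x (hsub x hx)
        have hgood : ∀ x ∈ R', (∃ p ∈ ports G Q x, p ≠ q) → x = u := fun x hx hp =>
          hRX x (hsub x hx) (mem_filter.mpr ⟨hmem x hx, hp⟩)
        have hpath : ∀ i, i ≤ 2 * M → f i ∈ S ∧ ¬∃ p ∈ ports G Q (f i), p ≠ q := fun i hi =>
          ⟨hfS i hi, fun ⟨p', hp', hne'⟩ => hne' (hport i hi p' hp')⟩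
        by_cases hM0 : M = 0
        · exact ⟨R', f a, hR', hmem, by omega, hlen2, hgood⟩
        rcases Nat.lt_or_ge a M with hlt | hge
        · refine ⟨R' ++ sg f (a + 1) (2 * M), f (2 * M),
            hR'.append (hf.sg (by omega) (by omega)) (hf.2 a (by omega)) ?_, ?_, by simp; omega,
            by simp; omega, ?_⟩
          · intro x hx hx'
            obtain ⟨i, hi, hi', rfl⟩ := mem_sg.mp hx'
            have := hR'P _ hx (mem_image.mpr ⟨i, mem_range.mpr (by omega), rfl⟩)
            have := hf.1 i a (by omega) (by omega) this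
            omega
          · intro x hx
            rcases List.mem_append.mp hx with hx | hx
            · exact hmem x hx
            · obtain ⟨i, hi, hi', rfl⟩ := mem_sg.mp hx; exact (hpath i hi').1
          · intro x hx hp
            rcases List.mem_append.mp hx with hx | hx
            · exact hgood x hx hp
            · obtain ⟨i, hi, hi', rfl⟩ := mem_sg.mp hx; exact absurd hp (hpath i hi').2
        · refine ⟨R' ++ (sg f 0 (a - 1)).reverse, f 0,
            hR'.append (hf.sg (Nat.zero_le _) (by omega)).reverse ?_ ?_, ?_, by simp; omega,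
            by simp; omega, ?_⟩
          · have := hf.2 (a - 1) (by omega)
            rw [Nat.sub_add_cancel (by omega)] at this
            exact this.symm
          · intro x hx hx'
            rw [List.mem_reverse] at hx'
            obtain ⟨i, hi, hi', rfl⟩ := mem_sg.mp hx'
            have := hR'P _ hx (mem_image.mpr ⟨i, mem_range.mpr (by omega), rfl⟩)
            have := hf.1 i a (by omega) (by omega) this
            omega
          · intro x hx
            rw [List.mem_append, List.mem_reverse] at hx
            rcases hx with hx | hx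
            · exact hmem x hx
            · obtain ⟨i, hi, hi', rfl⟩ := mem_sg.mp hx; exact (hpath i (by omega)).1
          · intro x hx hp
            rw [List.mem_append, List.mem_reverse] at hx
            rcases hx with hx | hx
            · exact hgood x hx hp
            · obtain ⟨i, hi, hi', rfl⟩ := mem_sg.mp hx; exact absurd hp (hpath i (by omega)).2
      obtain ⟨W, v, hW, hWS, hWl, hW2, hWq⟩ := hW
      obtain ⟨g, hg, hg0, -, hgm⟩ := hW.toPF
      set n := max M 1 with hn
      have hgn : g n ∈ W := (hgm _).mpr ⟨n, by omega, rfl⟩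
      obtain ⟨q', hq'⟩ := (hS _ (hWS _ hgn)).2
      have hq'q : q' = q := by
        by_contra hh
        have := hWq _ hgn ⟨q', hq', hh⟩
        rw [← hg0] at this
        have := hg.1 n 0 (by omega) (by omega) this
        omega
      exact forb _ _ _ p q' (hg.sg (Nat.zero_le n) (by omega)) (fun x hx => by
        obtain ⟨i, -, hi, rfl⟩ := mem_sg.mp hx
        exact hWS _ ((hgm _).mpr ⟨i, by omega, rfl⟩)) (hg0 ▸ hpu) hq' (hq'q ▸ hpq)
        (by simp; omega) (by simp; omega)

theorem Ctx.no_big_clique (h : Ctx G k r) {Q : Finset V}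
    (hQc : ∀ x ∈ Q, ∀ y ∈ Q, x ≠ y → G.Adj x y) (hQk : k + 1 ≤ 2 * Q.card) : False := by
  classical
  have hk := h.hk
  have hr := h.hr
  have htk : Q.card ≤ k := by
    by_contra hh
    exact h.hC (clique_cyc hQc (by omega) (by omega))
  have hQne : Q.Nonempty := card_pos.mp (by omega)
  have hmem0 : ∀ v, lev G Q v = 0 ↔ v ∈ Q := h.lev_zero hQne
  have hL1 : ∀ x ∈ layer G Q 1, x ∉ Q ∧ (ports G Q x).Nonempty := by
    intro x hx
    simp only [layer, mem_filter, mem_univ, true_and] at hx
    refine ⟨fun hq => by have := (hmem0 x).mpr hq; omega, ?_⟩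
    obtain ⟨u, hu, hux⟩ := h.lev_pred hQne (i := 0) hx
    exact ⟨u, mem_ports.mpr ⟨(hmem0 u).mp hu, hux⟩⟩
  have hU : Q ⊆ (layer G Q 1).biUnion (ports G Q) := by
    intro q hq
    obtain ⟨y, hy, hyQ⟩ : ∃ y, G.Adj q y ∧ y ∉ Q := by
      by_contra hh
      simp only [not_exists, not_and, not_not] at hh
      have hdeg := h.degree q
      have : degIn G univ q ≤ (Q.erase q).card := by
        refine card_le_card fun y hy => ?_
        rw [mem_filter] at hy
        exact mem_erase.mpr ⟨hy.2.ne.symm, hh y hy.2⟩
      rw [card_erase_of_mem hq] at this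
      omega
    have h1 := h.lev_adj hQne hy
    have h2 := (hmem0 q).mpr hq
    have h3 : lev G Q y ≠ 0 := fun e => hyQ ((hmem0 y).mp e)
    exact mem_biUnion.mpr ⟨y, by simp [layer]; omega, mem_ports.mpr ⟨hq, hy⟩⟩
  have hsl := h.slack hQc hQk htk (layer G Q 1) hL1
  have hUc := card_le_card hU
  have h0 : layer G Q 0 = Q := by
    ext v; simp [layer, hmem0]
  have hal0 : al G (layer G Q 0) = 1 := by
    rw [h0]
    refine le_antisymm ?_ (al_pos hQne)
    obtain ⟨J, j1, j2, j3⟩ := exists_al G Q
    rw [← j3]
    refine card_le_one.mpr fun a ha b hb => ?_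
    by_contra hab
    exact j2 a ha b hb (hQc a (j1 ha) b (j1 hb) hab)
  refine h.count hQne (fun i => if i = 1 then 2 * Q.card - k else 0) fun i hi => ?_
  rcases Nat.lt_or_ge i 2 with hi2 | hi2
  · interval_cases i
    · simp [h0] at hal0 ⊢
      rw [hal0]
      omega
    · simp
      omega
  simp only [show i ≠ 1 by omega, show i ≠ 0 by omega, if_false, Nat.add_zero]
  by_contra hcon
  rcases (layer G Q i).eq_empty_or_nonempty with he | hne
  · simp [he] at hcon
  obtain ⟨H, hH, hm⟩ := exists_minDense (c := 2) (K := k) (e := 1) (S := layer G Q i)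
    (G := G) ⟨hne, by omega⟩
  by_cases hal : 2 ≤ al G H
  · exact h.core_layer hQc hQne hi2 hH hm hal
  · have hHd := hm.1.2
    have := al_pos (G := G) hm.1.1
    rw [show al G H = 1 by omega] at hHd
    refine two_clique h.hk h.hal h.hC h.connected h.noCut hQc
      (clique_of_al_le_one (show al G H ≤ 1 by omega)) ?_ (by omega) (by omega) (by omega)
    refine disjoint_left.mpr fun x hx hx' => ?_
    have h2 := hH hx'
    simp only [layer, mem_filter, mem_univ, true_and] at h2
    have := (hmem0 x).mpr hx
    omega

end Vale.Agent.P048.Cycle
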